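import Vale.Agent.P281.H64.Spec

/-!
# P281, theorem T-D (helper125): transition maps between the sheets of a compact Riemann surface
-/

open Set Filter Metric MeasureTheory
open scoped Topology ContDiff ComplexConjugate

noncomputable section

namespace Vale.Agent.P281.H125

open Vale.Agent.P281.H64

variable {E Γ : Type} [TopologicalSpace E] [Group Γ] [MulAction Γ E] (S : Sheets E Γ)

/-- the points of the sheet `i` which lie in the sheet `j` (modulo `Γ`) -/
def U (i j : Fin S.N) : Set ℂ :=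
  {z | z ∈ ball (0 : ℂ) 3 ∧ ∃ (w : ℂ) (γ : Γ), w ∈ ball (0 : ℂ) 3 ∧ S.σ i z = γ • S.σ j w}

open Classical in
/-- the change of coordinates from the sheet `i` to the sheet `j` -/
def τ (i j : Fin S.N) (z : ℂ) : ℂ := if h : z ∈ U S i j then h.2.choose else 0

open Classical in
/-- the element of `Γ` of the change of sheets -/
def κ (i j : Fin S.N) (z : ℂ) : Γ := if h : z ∈ U S i j then h.2.choose_spec.choose else 1

variable {S} {i j k : Fin S.N} {z w : ℂ} {γ : Γ}

theorem tau_spec (h : z ∈ U S i j) :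
    τ S i j z ∈ ball (0 : ℂ) 3 ∧ S.σ i z = κ S i j z • S.σ j (τ S i j z) := by
  have h1 : τ S i j z = h.2.choose := by simp only [τ, h, dif_pos]
  have h2 : κ S i j z = h.2.choose_spec.choose := by simp only [κ, h, dif_pos]
  rw [h1, h2]
  exact h.2.choose_spec.choose_spec

theorem tau_mem (h : z ∈ U S i j) : τ S i j z ∈ ball (0 : ℂ) 3 := (tau_spec h).1

theorem sigma_eq (h : z ∈ U S i j) : S.σ i z = κ S i j z • S.σ j (τ S i j z) := (tau_spec h).2

theorem mem_U (hz : z ∈ ball (0 : ℂ) 3) (hw : w ∈ ball (0 : ℂ) 3) (h : S.σ i z = γ • S.σ j w) :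
    z ∈ U S i j := ⟨hz, w, γ, hw, h⟩

theorem U_sub : U S i j ⊆ ball 0 3 := fun _ h => h.1

theorem tau_unique (hz : z ∈ ball (0 : ℂ) 3) (hw : w ∈ ball (0 : ℂ) 3)
    (h : S.σ i z = γ • S.σ j w) : τ S i j z = w ∧ κ S i j z = γ := by
  have h1 := tau_spec (mem_U hz hw h)
  rw [h1.2] at h
  have h2 : (γ⁻¹ * κ S i j z) • S.σ j (τ S i j z) = S.σ j w := by
    rw [mul_smul, h, smul_smul, inv_mul_cancel, one_smul]
  obtain ⟨h3, h4⟩ := S.inj j _ h1.1 _ hw _ h2
  exact ⟨h4, (inv_mul_eq_one.1 h3).symm⟩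

theorem tau_self (hz : z ∈ ball (0 : ℂ) 3) : τ S i i z = z ∧ κ S i i z = 1 :=
  tau_unique hz hz (one_smul Γ (S.σ i z)).symm

theorem mem_U_self (hz : z ∈ ball (0 : ℂ) 3) : z ∈ U S i i :=
  mem_U hz hz (one_smul Γ (S.σ i z)).symm

theorem tau_mem_U (h : z ∈ U S i j) : τ S i j z ∈ U S j i ∧ τ S j i (τ S i j z) = z ∧
    κ S j i (τ S i j z) = (κ S i j z)⁻¹ := by
  have h1 := tau_spec h
  have h2 : S.σ j (τ S i j z) = (κ S i j z)⁻¹ • S.σ i z := by
    rw [h1.2, smul_smul, inv_mul_cancel, one_smul]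
  exact ⟨mem_U h1.1 h.1 h2, tau_unique h1.1 h.1 h2⟩

theorem tau_trans (h : z ∈ U S i j) (h' : τ S i j z ∈ U S j k) :
    z ∈ U S i k ∧ τ S i k z = τ S j k (τ S i j z) ∧
      κ S i k z = κ S i j z * κ S j k (τ S i j z) := by
  have h1 := tau_spec h
  have h2 := tau_spec h'
  have h3 : S.σ i z = (κ S i j z * κ S j k (τ S i j z)) • S.σ k (τ S j k (τ S i j z)) := by
    rw [mul_smul, ← h2.2]
    exact h1.2
  exact ⟨mem_U h.1 h2.1 h3, tau_unique h.1 h2.1 h3⟩

/-- if `z` lies in the sheets `j` and `k`, then its coordinate in `j` lies in the sheet `k` -/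
theorem tau_mem_U' (h : z ∈ U S i j) (h' : z ∈ U S i k) : τ S i j z ∈ U S j k := by
  have h1 := tau_mem_U h
  have h2 : τ S j i (τ S i j z) ∈ U S i k := by rw [h1.2.1]; exact h'
  exact (tau_trans h1.1 h2).1

theorem tau_local (h : z ∈ U S i j) : ∃ θ : ℂ → ℂ, AnalyticAt ℂ θ z ∧
    ∀ᶠ u in 𝓝 z, u ∈ U S i j ∧ τ S i j u = θ u ∧ κ S i j u = κ S i j z := by
  obtain ⟨h1, h2⟩ := tau_spec h
  obtain ⟨θ, h3, h4, h5⟩ := S.hol i j z h.1 _ h1 _ h2
  refine ⟨θ, h3, ?_⟩
  have h6 : ∀ᶠ u in 𝓝 z, θ u ∈ ball (0 : ℂ) 3 := by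
    refine h3.continuousAt.eventually ?_
    rw [h4]
    exact isOpen_ball.mem_nhds h1
  filter_upwards [h5, h6, isOpen_ball.mem_nhds h.1] with u a b c
  obtain ⟨h7, h8⟩ := tau_unique c b a
  exact ⟨mem_U c b a, h7, h8⟩

theorem isOpen_U : IsOpen (U S i j) := by
  rw [isOpen_iff_mem_nhds]
  intro z hz
  obtain ⟨θ, -, h⟩ := tau_local hz
  filter_upwards [h] with u hu using hu.1

theorem analyticAt_tau (h : z ∈ U S i j) : AnalyticAt ℂ (τ S i j) z := by
  obtain ⟨θ, h1, h2⟩ := tau_local h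
  exact h1.congr (h2.mono fun u hu => hu.2.1.symm)

theorem differentiableOn_tau : DifferentiableOn ℂ (τ S i j) (U S i j) :=
  fun _ h => (analyticAt_tau h).differentiableAt.differentiableWithinAt

theorem kappa_local (h : z ∈ U S i j) : ∀ᶠ u in 𝓝 z, κ S i j u = κ S i j z := by
  obtain ⟨θ, h1, h2⟩ := tau_local h
  exact h2.mono fun u hu => hu.2.2

theorem deriv_tau_mul (h : z ∈ U S i j) :
    deriv (τ S j i) (τ S i j z) * deriv (τ S i j) z = 1 := by
  have h1 := tau_mem_U h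
  have h2 := (analyticAt_tau h).differentiableAt.hasDerivAt
  have h3 := (analyticAt_tau h1.1).differentiableAt.hasDerivAt
  have h4 := h3.comp z h2
  have h5 : (τ S j i ∘ τ S i j) =ᶠ[𝓝 z] id := by
    filter_upwards [isOpen_U.mem_nhds h] with u hu
    exact (tau_mem_U hu).2.1
  have h6 := h5.deriv_eq
  rw [h4.deriv] at h6
  rw [h6]
  exact deriv_id z

theorem deriv_tau_ne (h : z ∈ U S i j) : deriv (τ S i j) z ≠ 0 :=
  right_ne_zero_of_mul (by rw [deriv_tau_mul h]; exact one_ne_zero)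

theorem deriv_tau_trans (h : z ∈ U S i j) (h' : τ S i j z ∈ U S j k) :
    deriv (τ S i k) z = deriv (τ S j k) (τ S i j z) * deriv (τ S i j) z := by
  have h2 := (analyticAt_tau h).differentiableAt.hasDerivAt
  have h3 := (analyticAt_tau h').differentiableAt.hasDerivAt
  have h4 := h3.comp z h2
  rw [← h4.deriv]
  refine Filter.EventuallyEq.deriv_eq ?_
  have h5 : ∀ᶠ u in 𝓝 z, τ S i j u ∈ U S j k :=
    (analyticAt_tau h).continuousAt.eventually (isOpen_U.mem_nhds h')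
  filter_upwards [isOpen_U.mem_nhds h, h5] with u hu hu'
  exact (tau_trans hu hu').2.1

theorem injOn_tau : InjOn (τ S i j) (U S i j) := by
  intro z hz w hw h
  have h1 := (tau_mem_U hz).2.1
  have h2 := (tau_mem_U hw).2.1
  rw [← h1, h, h2]

/-! ### The fundamental domain -/

theorem mem_P : z ∈ S.P i ↔ ‖z‖ < 1 ∧ ∀ j, j < i → ¬ (z ∈ U S i j ∧ ‖τ S i j z‖ < 1) := by
  constructor
  · rintro ⟨h1, h2⟩
    refine ⟨h1, fun j hj h => ?_⟩
    exact h2 j hj _ _ h.2 (sigma_eq h.1).symm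
  · rintro ⟨h1, h2⟩
    refine ⟨h1, fun j hj γ w hw h => h2 j hj ?_⟩
    have hz : z ∈ ball (0 : ℂ) 3 := mem_ball_zero_iff.2 (by linarith)
    have hw' : w ∈ ball (0 : ℂ) 3 := mem_ball_zero_iff.2 (by linarith)
    refine ⟨mem_U hz hw' h.symm, ?_⟩
    rw [(tau_unique hz hw' h.symm).1]
    exact hw

theorem P_sub_one : S.P i ⊆ ball 0 1 := fun _ h => mem_ball_zero_iff.2 h.1

theorem P_sub : S.P i ⊆ ball 0 3 := P_sub_one.trans (ball_subset_ball (by norm_num))

theorem isOpen_preimage_tau {A : Set ℂ} (hA : IsOpen A) :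
    IsOpen {z | z ∈ U S i j ∧ τ S i j z ∈ A} := by
  have h := (differentiableOn_tau (S := S) (i := i) (j := j)).continuousOn.isOpen_inter_preimage
    isOpen_U hA
  exact h

theorem measurableSet_preimage_tau {A : Set ℂ} (hA : MeasurableSet A) :
    MeasurableSet {z | z ∈ U S i j ∧ τ S i j z ∈ A} := by
  have h1 : {z | z ∈ U S i j ∧ τ S i j z ∈ A} =
      Subtype.val '' ((fun z : U S i j => τ S i j z) ⁻¹' A) := by
    ext z
    simp only [Set.mem_ofPred_eq, mem_image, mem_preimage, Subtype.exists, exists_and_right,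
      exists_eq_right]
    constructor
    · rintro ⟨h, h'⟩
      exact ⟨h, h'⟩
    · rintro ⟨h, h'⟩
      exact ⟨h, h'⟩
  rw [h1]
  refine isOpen_U.measurableSet.subtype_image ?_
  exact (continuousOn_iff_continuous_domRestrict.1
    (differentiableOn_tau (S := S) (i := i) (j := j)).continuousOn).measurable hA

theorem measurableSet_P : MeasurableSet (S.P i) := by
  have h : S.P i = ball (0 : ℂ) 1 \ ⋃ j : Fin S.N, ⋃ _ : j < i,
      {z | z ∈ U S i j ∧ τ S i j z ∈ ball (0 : ℂ) 1} := by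
    ext z
    rw [mem_P]
    simp only [Set.mem_sdiff, mem_ball_zero_iff, mem_iUnion, Set.mem_ofPred_eq, exists_prop, not_exists,
      not_and]
  rw [h]
  refine measurableSet_ball.diff (MeasurableSet.iUnion fun j => MeasurableSet.iUnion fun _ => ?_)
  exact (isOpen_preimage_tau isOpen_ball).measurableSet

/-- every point of a sheet lies in the fundamental domain of some sheet -/
theorem exists_P (hz : z ∈ ball (0 : ℂ) 3) (j : Fin S.N) : ∃ i, z ∈ U S j i ∧ τ S j i z ∈ S.P i := by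
  have h1 : ∃ i, z ∈ U S j i ∧ ‖τ S j i z‖ < 1 := by
    obtain ⟨γ, i, w, hw, h⟩ := S.cover (S.σ j z)
    have hw' : w ∈ ball (0 : ℂ) 3 := mem_ball_zero_iff.2 (by linarith)
    refine ⟨i, mem_U hz hw' h.symm, ?_⟩
    rw [(tau_unique hz hw' h.symm).1]
    exact hw
  classical
  obtain ⟨i, hi, hmin⟩ := Finset.exists_min_image
    (Finset.univ.filter fun i => z ∈ U S j i ∧ ‖τ S j i z‖ < 1) id
    (by obtain ⟨i, hi⟩ := h1; exact ⟨i, by simpa using hi⟩)
  simp only [Finset.mem_filter, Finset.mem_univ, true_and, id_eq] at hi hmin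
  refine ⟨i, hi.1, mem_P.2 ⟨hi.2, fun l hl h => ?_⟩⟩
  have h2 := tau_trans hi.1 h.1
  have h3 := hmin l ⟨h2.1, by rw [h2.2.1]; exact h.2⟩
  exact absurd h3 (not_le.2 hl)

/-- ... of only one sheet -/
theorem P_unique {l : Fin S.N} (h : z ∈ U S j i) (hP : τ S j i z ∈ S.P i) (h' : z ∈ U S j l)
    (hP' : τ S j l z ∈ S.P l) : i = l := by
  by_contra hne
  rcases lt_or_gt_of_ne hne with hlt | hlt
  · refine (mem_P.1 hP').2 i hlt ?_
    have h1 := tau_mem_U' h' h
    refine ⟨h1, ?_⟩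
    rw [← (tau_trans h' h1).2.1]
    exact hP.1
  · refine (mem_P.1 hP).2 l hlt ?_
    have h1 := tau_mem_U' h h'
    refine ⟨h1, ?_⟩
    rw [← (tau_trans h h1).2.1]
    exact hP'.1

end Vale.Agent.P281.H125
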