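import Vale.Agent.P281.H125.CoV
import Vale.Agent.P253.R2.H66.Weight

/-!
# P281, theorem T-D (helper125): functions supported in a sheet, `∂̄` of functions on the surface
-/

open Set Filter Metric MeasureTheory
open scoped Topology ContDiff ComplexConjugate ENNReal

noncomputable section

namespace Vale.Agent.P281.H125

open Vale.Agent.P281.H64

/-! ### `∂̄` on `ℂ` -/

theorem dbar_congr {f g : ℂ → ℂ} {z : ℂ} (h : f =ᶠ[𝓝 z] g) : dbar f z = dbar g z := by
  rw [dbar, dbar, h.fderiv_eq]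

theorem dbar_eq_dzb (f : ℂ → ℂ) (z : ℂ) : dbar f z = Vale.Agent.P253.R2.H66.dzb f z := by
  rw [dbar, Vale.Agent.P253.R2.H66.dzb]
  simp only [smul_eq_mul]
  ring

theorem dbar_comp {f g : ℂ → ℂ} {z : ℂ} (hg : DifferentiableAt ℂ g z)
    (hf : DifferentiableAt ℝ f (g z)) :
    dbar (fun u => f (g u)) z = dbar f (g z) * conj (deriv g z) := by
  have h1 : HasFDerivAt g (mulR (deriv g z)) z := hasFDerivAt_mulR hg.hasDerivAt
  have h2 : HasFDerivAt (fun u => f (g u)) ((fderiv ℝ f (g z)).comp (mulR (deriv g z))) z :=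
    hf.hasFDerivAt.comp z h1
  rw [dbar, dbar, h2.fderiv]
  simp only [ContinuousLinearMap.comp_apply, mulR_apply, one_mul]
  set L := fderiv ℝ f (g z) with hL
  set c := deriv g z with hc
  have h3 : c = (c.re : ℝ) • (1 : ℂ) + (c.im : ℝ) • Complex.I := by
    conv_lhs => rw [← Complex.re_add_im c]
    simp
  have h4 : Complex.I * c = (-c.im : ℝ) • (1 : ℂ) + (c.re : ℝ) • Complex.I := by
    conv_lhs => rw [← Complex.re_add_im c]
    simp only [Complex.real_smul]
    push_cast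
    linear_combination (c.im : ℂ) * Complex.I_mul_I
  have h5 : L c = c.re * L 1 + c.im * L Complex.I := by
    conv_lhs => rw [h3]
    rw [map_add, map_smul, map_smul]
    simp
  have h6 : L (Complex.I * c) = -c.im * L 1 + c.re * L Complex.I := by
    rw [h4, map_add, map_smul, map_smul]
    simp
  have h7 : conj c = c.re - c.im * Complex.I := by
    apply Complex.ext <;> simp
  rw [h5, h6, h7]
  linear_combination ((c.im : ℂ) * L Complex.I / 2) * Complex.I_mul_I

theorem dbar_of_holo {f : ℂ → ℂ} {z : ℂ} (hf : DifferentiableAt ℂ f z) : dbar f z = 0 := by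
  rw [dbar_eq_dzb, Vale.Agent.P253.R2.H66.dzb_of_holo hf]

theorem dbar_add {f g : ℂ → ℂ} {z : ℂ} (hf : DifferentiableAt ℝ f z)
    (hg : DifferentiableAt ℝ g z) : dbar (fun u => f u + g u) z = dbar f z + dbar g z := by
  simp only [dbar_eq_dzb]
  exact Vale.Agent.P253.R2.H66.dzb_add hf hg

theorem dbar_const_mul {f : ℂ → ℂ} {z : ℂ} (c : ℂ) (hf : DifferentiableAt ℝ f z) :
    dbar (fun u => c * f u) z = c * dbar f z := by
  have h : HasFDerivAt (fun u => c * f u) (c • fderiv ℝ f z) z := hf.hasFDerivAt.const_mul c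
  rw [dbar, dbar, h.fderiv]
  simp only [_root_.smul_apply, smul_eq_mul]
  ring

theorem dbar_const (c z : ℂ) : dbar (fun _ => c) z = 0 :=
  dbar_of_holo (differentiableAt_const c)

theorem continuousOn_dbar {f : ℂ → ℂ} {A : Set ℂ} (hA : IsOpen A) (hf : ContDiffOn ℝ 1 f A) :
    ContinuousOn (dbar f) A := by
  have h := hf.continuousOn_fderiv_of_isOpen hA le_rfl
  unfold dbar
  exact ((h.clm_apply continuousOn_const).add
    (continuousOn_const.mul (h.clm_apply continuousOn_const))).div_const _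

theorem contDiffOn_dbar {f : ℂ → ℂ} {A : Set ℂ} (hA : IsOpen A) (hf : ContDiffOn ℝ ∞ f A) :
    ContDiffOn ℝ ∞ (dbar f) A := by
  have h : ContDiffOn ℝ ∞ (fun z => fderiv ℝ f z) A := by
    have := hf.fderiv_of_isOpen hA (m := ∞) (by simp)
    exact this
  unfold dbar
  exact ((h.clm_apply contDiffOn_const).add
    (contDiffOn_const.mul (h.clm_apply contDiffOn_const))).div_const _

theorem continuous_dbar {f : ℂ → ℂ} (hf : ContDiff ℝ 1 f) : Continuous (dbar f) := by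
  rw [← continuousOn_univ]
  exact continuousOn_dbar isOpen_univ hf.contDiffOn

theorem dbar_eq_zero_of_notMem {f : ℂ → ℂ} {z : ℂ} (h : z ∉ tsupport f) : dbar f z = 0 := by
  have h1 : f =ᶠ[𝓝 z] fun _ => 0 := by
    filter_upwards [(isClosed_tsupport f).isOpen_compl.mem_nhds h] with u hu
    exact image_eq_zero_of_notMem_tsupport hu
  rw [dbar_congr h1, dbar_const]

/-! ### Functions supported in a sheet -/

variable {E Γ : Type} [TopologicalSpace E] [Group Γ] [MulAction Γ E] {S : Sheets E Γ}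
  {i j : Fin S.N}

theorem tendsto_sigma {z : ℂ} (hz : z ∈ ball (0 : ℂ) 3) : Tendsto (S.σ i) (𝓝 z) (𝓝 (S.σ i z)) :=
  (S.map_nhds i z hz).le

/-- `u` is a function on the surface -/
def Inv (Γ : Type) [Group Γ] {E : Type} [MulAction Γ E] (u : E → ℂ) : Prop :=
  ∀ (γ : Γ) e, u (γ • e) = u e

variable (S) in
open Classical in
/-- The function which is `φ` in the sheet `j` and `0` elsewhere. -/
def ext (j : Fin S.N) (φ : ℂ → ℂ) (e : E) : ℂ :=
  if h : ∃ (z : ℂ) (γ : Γ), z ∈ ball (0 : ℂ) 3 ∧ e = γ • S.σ j z then φ h.choose else 0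

theorem ext_smul (φ : ℂ → ℂ) (γ : Γ) {z : ℂ} (hz : z ∈ ball (0 : ℂ) 3) :
    ext S j φ (γ • S.σ j z) = φ z := by
  have h : ∃ (w : ℂ) (γ' : Γ), w ∈ ball (0 : ℂ) 3 ∧ γ • S.σ j z = γ' • S.σ j w :=
    ⟨z, γ, hz, rfl⟩
  have h1 : ext S j φ (γ • S.σ j z) = φ h.choose := by simp only [ext, h, dif_pos]
  rw [h1]
  obtain ⟨γ', hw, h2⟩ := h.choose_spec
  set w := h.choose with hw0
  have h3 : (γ'⁻¹ * γ) • S.σ j z = S.σ j w := by
    rw [mul_smul, h2, smul_smul, inv_mul_cancel, one_smul]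
  rw [(S.inj j z hz w hw _ h3).2]

theorem ext_of_mem (φ : ℂ → ℂ) (γ : Γ) {z : ℂ} (hz : z ∈ U S i j) :
    ext S j φ (γ • S.σ i z) = φ (τ S i j z) := by
  rw [sigma_eq hz, smul_smul, ext_smul φ _ (tau_mem hz)]

theorem ext_of_notMem (φ : ℂ → ℂ) (γ : Γ) {z : ℂ} (hz : z ∈ ball (0 : ℂ) 3) (h : z ∉ U S i j) :
    ext S j φ (γ • S.σ i z) = 0 := by
  have h1 : ¬ ∃ (w : ℂ) (γ' : Γ), w ∈ ball (0 : ℂ) 3 ∧ γ • S.σ i z = γ' • S.σ j w := by
    rintro ⟨w, γ', hw, h2⟩
    refine h (mem_U (γ := γ⁻¹ * γ') hz hw ?_)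
    rw [mul_smul, ← h2, smul_smul, inv_mul_cancel, one_smul]
  simp only [ext, h1, dif_neg, not_false_iff]

theorem ext_inv (φ : ℂ → ℂ) : Inv Γ (ext S j φ) := by
  intro γ e
  obtain ⟨γ', i, z, hz, rfl⟩ := S.cover e
  have hz3 : z ∈ ball (0 : ℂ) 3 := mem_ball_zero_iff.2 (by linarith)
  rw [smul_smul]
  by_cases h : z ∈ U S i j
  · rw [ext_of_mem φ _ h, ext_of_mem φ _ h]
  · rw [ext_of_notMem φ _ hz3 h, ext_of_notMem φ _ hz3 h]

/-- `φ` is a smooth function with compact support in the disc `D(0,3)` -/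
structure Tst (φ : ℂ → ℂ) : Prop where
  smooth : ContDiff ℝ ∞ φ
  supp : ∃ r : ℝ, r < 3 ∧ ∀ z, φ z ≠ 0 → ‖z‖ ≤ r

theorem Tst.compact {φ : ℂ → ℂ} (h : Tst φ) : HasCompactSupport φ := by
  obtain ⟨r, -, hr⟩ := h.supp
  refine HasCompactSupport.of_support_subset_isCompact (isCompact_closedBall (0 : ℂ) r) ?_
  intro z hz
  exact mem_closedBall_zero_iff.2 (hr z hz)

theorem Tst.of_tsupport {φ : ℂ → ℂ} (h : ContDiff ℝ ∞ φ) (hc : HasCompactSupport φ)
    (hs : tsupport φ ⊆ ball 0 3) : Tst φ := by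
  refine ⟨h, ?_⟩
  rcases (tsupport φ).eq_empty_or_nonempty with he | hne
  · refine ⟨0, by norm_num, fun z hz => ?_⟩
    have : z ∈ tsupport φ := subset_tsupport _ hz
    rw [he] at this
    exact absurd this (notMem_empty z)
  · obtain ⟨w, hw, hmax⟩ := hc.isCompact.exists_isMaxOn hne continuous_norm.continuousOn
    exact ⟨‖w‖, mem_ball_zero_iff.1 (hs hw), fun z hz => hmax (subset_tsupport _ hz)⟩

/-- near a point which is not in the sheet `j`, the extension vanishes -/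
theorem ext_eventually_zero {φ : ℂ → ℂ} (hφ : Tst φ) {z : ℂ} (hz : z ∈ ball (0 : ℂ) 3)
    (h : z ∉ U S i j) : ∀ᶠ u in 𝓝 z, ∀ γ : Γ, ext S j φ (γ • S.σ i u) = 0 := by
  obtain ⟨r, hr, hs⟩ := hφ.supp
  have hcl := S.closed j r hr
  have h1 : S.σ i z ∈ {e : E | ∃ (γ : Γ) (z : ℂ), ‖z‖ ≤ r ∧ γ • S.σ j z = e}ᶜ := by
    rintro ⟨γ, w, hw, h2⟩
    exact h (mem_U hz (mem_ball_zero_iff.2 (by linarith)) h2.symm)
  filter_upwards [(tendsto_sigma (S := S) (i := i) hz).eventually (hcl.isOpen_compl.mem_nhds h1),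
    isOpen_ball.mem_nhds hz] with u hu hu3 γ
  by_cases hU : u ∈ U S i j
  · rw [ext_of_mem φ γ hU]
    by_contra hne
    exact hu ⟨κ S i j u, τ S i j u, hs _ hne, (sigma_eq hU).symm⟩
  · exact ext_of_notMem φ γ hu3 hU

theorem ext_smooth {φ : ℂ → ℂ} (hφ : Tst φ) : S.Smooth (ext S j φ) := by
  intro i γ z hz
  refine ContDiffAt.contDiffWithinAt ?_
  by_cases h : z ∈ U S i j
  · have h1 : (fun u => ext S j φ (γ • S.σ i u)) =ᶠ[𝓝 z] fun u => φ (τ S i j u) := by
      filter_upwards [isOpen_U.mem_nhds h] with u hu using ext_of_mem φ γ hu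
    refine ContDiffAt.congr_of_eventuallyEq ?_ h1
    have h2 : ContDiffAt ℂ ∞ (τ S i j) z := (analyticAt_tau h).contDiffAt
    exact ContDiffAt.comp z hφ.smooth.contDiffAt (h2.restrict_scalars ℝ)
  · refine ContDiffAt.congr_of_eventuallyEq (contDiffAt_const (c := (0 : ℂ))) ?_
    filter_upwards [ext_eventually_zero hφ hz h] with u hu using hu γ

/-! ### `∂̄` of functions on the surface -/

variable (S) in
/-- `∂̄v` -/
def db (v : E → ℂ) (i : Fin S.N) (z : ℂ) : ℂ := dbar (fun u => v (S.σ i u)) z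

variable (S) in
/-- `F` is a `(0,1)`-form (pointwise) -/
def IsForm (F : Fin S.N → ℂ → ℂ) : Prop :=
  ∀ i j, ∀ z ∈ U S i j, F i z = F j (τ S i j z) * conj (deriv (τ S i j) z)

theorem Smooth.sigma {v : E → ℂ} (hv : S.Smooth v) (i : Fin S.N) :
    ContDiffOn ℝ ∞ (fun z => v (S.σ i z)) (ball 0 3) := by
  have h := hv i 1
  simpa only [one_smul] using h

theorem Smooth.diff {v : E → ℂ} (hv : S.Smooth v) (i : Fin S.N) {z : ℂ}
    (hz : z ∈ ball (0 : ℂ) 3) : DifferentiableAt ℝ (fun z => v (S.σ i z)) z :=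
  ((Smooth.sigma hv i).contDiffAt (isOpen_ball.mem_nhds hz)).differentiableAt (by simp)

theorem comp_tau_eventually {v : E → ℂ} (hi : Inv Γ v) {z : ℂ} (hz : z ∈ U S i j) :
    (fun u => v (S.σ i u)) =ᶠ[𝓝 z] fun u => v (S.σ j (τ S i j u)) := by
  filter_upwards [isOpen_U.mem_nhds hz] with u hu
  rw [sigma_eq hu, hi]

theorem db_form {v : E → ℂ} (hv : S.Smooth v) (hi : Inv Γ v) : IsForm S (db S v) := by
  intro i j z hz
  unfold db
  rw [dbar_congr (comp_tau_eventually hi hz)]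
  exact dbar_comp (f := fun w => v (S.σ j w)) (analyticAt_tau hz).differentiableAt
    (Smooth.diff hv j (tau_mem hz))

theorem db_smooth {v : E → ℂ} (hv : S.Smooth v) (i : Fin S.N) :
    ContDiffOn ℝ ∞ (db S v i) (ball 0 3) :=
  contDiffOn_dbar isOpen_ball (Smooth.sigma hv i)

theorem db_ext {φ : ℂ → ℂ} {z : ℂ} (hz : z ∈ ball (0 : ℂ) 3) : db S (ext S j φ) j z = dbar φ z := by
  refine dbar_congr ?_
  filter_upwards [isOpen_ball.mem_nhds hz] with u hu
  have := ext_smul (S := S) (j := j) φ 1 hu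
  simpa only [one_smul] using this

theorem db_ext_zero {φ : ℂ → ℂ} (hφ : Tst φ) {z : ℂ} (hz : z ∈ ball (0 : ℂ) 3)
    (h : z ∉ U S i j) : db S (ext S j φ) i z = 0 := by
  have h1 : (fun u => ext S j φ (S.σ i u)) =ᶠ[𝓝 z] fun _ => 0 := by
    filter_upwards [ext_eventually_zero hφ hz h] with u hu
    simpa only [one_smul] using hu 1
  rw [db, dbar_congr h1, dbar_const]

theorem form01_isForm {a : Fin S.N → ℂ → ℂ} (ha : Form01 S a) : IsForm S a := by
  intro i j z hz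
  obtain ⟨h1, h2⟩ := tau_spec hz
  refine ha.change i j z hz.1 _ h1 (κ S i j z) (τ S i j) (analyticAt_tau hz) rfl ?_
  filter_upwards [isOpen_U.mem_nhds hz, kappa_local hz] with u hu hu'
  rw [sigma_eq hu, hu']

/-! ### Smooth functions: closure properties -/

theorem Inv.add {u v : E → ℂ} (hu : Inv Γ u) (hv : Inv Γ v) : Inv Γ (fun e => u e + v e) :=
  fun γ e => by simp only [hu γ e, hv γ e]

theorem Inv.const_mul {u : E → ℂ} (c : ℂ) (hu : Inv Γ u) : Inv Γ (fun e => c * u e) :=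
  fun γ e => by simp only [hu γ e]

theorem Inv.sub_const {u : E → ℂ} (c : ℂ) (hu : Inv Γ u) : Inv Γ (fun e => u e - c) :=
  fun γ e => by simp only [hu γ e]

theorem Smooth.add {u v : E → ℂ} (hu : S.Smooth u) (hv : S.Smooth v) :
    S.Smooth (fun e => u e + v e) := fun i γ => (hu i γ).add (hv i γ)

theorem Smooth.const_mul {u : E → ℂ} (c : ℂ) (hu : S.Smooth u) :
    S.Smooth (fun e => c * u e) := fun i γ => contDiffOn_const.mul (hu i γ)

theorem Smooth.sub_const {u : E → ℂ} (c : ℂ) (hu : S.Smooth u) :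
    S.Smooth (fun e => u e - c) := fun i γ => (hu i γ).sub contDiffOn_const

theorem Smooth.const (c : ℂ) : S.Smooth (fun _ => c) := fun _ _ => contDiffOn_const

theorem db_add {u v : E → ℂ} (hu : S.Smooth u) (hv : S.Smooth v) {z : ℂ}
    (hz : z ∈ ball (0 : ℂ) 3) : db S (fun e => u e + v e) i z = db S u i z + db S v i z :=
  dbar_add (Smooth.diff hu i hz) (Smooth.diff hv i hz)

theorem db_const_mul {u : E → ℂ} (c : ℂ) (hu : S.Smooth u) {z : ℂ} (hz : z ∈ ball (0 : ℂ) 3) :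
    db S (fun e => c * u e) i z = c * db S u i z :=
  dbar_const_mul c (Smooth.diff hu i hz)

end Vale.Agent.P281.H125
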