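import Vale.Agent.P281.H125.K

/-!
# P281, theorem T-D (helper125): gluing, and boundedness of the holomorphic parts
-/

open Set Filter Metric MeasureTheory
open scoped Topology ContDiff ComplexConjugate ENNReal

noncomputable section

namespace Vale.Agent.P281.H125

open Vale.Agent.P281.H64

variable {E Γ : Type} [TopologicalSpace E] [Group Γ] [MulAction Γ E] {S : Sheets E Γ}
  {i j : Fin S.N}

/-! ### Gluing -/

variable (S) in
/-- the function on the surface which is `G j` in the sheet `j` -/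
def glue (G : Fin S.N → ℂ → ℂ) (e : E) : ℂ :=
  G (S.cover e).choose_spec.choose (S.cover e).choose_spec.choose_spec.choose

variable (S) in
/-- `G` is a function on the surface (given on the discs of radius 2) -/
def IsFun (G : Fin S.N → ℂ → ℂ) : Prop :=
  ∀ j i, ∀ z ∈ U S j i, z ∈ ball (0 : ℂ) 2 → τ S j i z ∈ ball (0 : ℂ) 2 →
    G j z = G i (τ S j i z)

theorem glue_eq {G : Fin S.N → ℂ → ℂ} (hG : IsFun S G) (γ : Γ) {z : ℂ}
    (hz : z ∈ ball (0 : ℂ) 2) : glue S G (γ • S.σ j z) = G j z := by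
  set e := γ • S.σ j z with he
  obtain ⟨h1, h2⟩ := (S.cover e).choose_spec.choose_spec.choose_spec
  set γ' := (S.cover e).choose
  set i := (S.cover e).choose_spec.choose
  set w := (S.cover e).choose_spec.choose_spec.choose
  have hz3 : z ∈ ball (0 : ℂ) 3 := ball_subset_ball (by norm_num) hz
  have hw3 : w ∈ ball (0 : ℂ) 3 := mem_ball_zero_iff.2 (by linarith)
  have h3 : S.σ j z = (γ⁻¹ * γ') • S.σ i w := by
    rw [mul_smul, h2, he, smul_smul, inv_mul_cancel, one_smul]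
  have hU := mem_U hz3 hw3 h3
  have h4 := tau_unique hz3 hw3 h3
  rw [hG j i z hU hz (by rw [h4.1]; exact mem_ball_zero_iff.2 (by linarith)), h4.1]
  rfl

theorem glue_sheet {G : Fin S.N → ℂ → ℂ} (hG : IsFun S G) {z : ℂ}
    (hz : z ∈ ball (0 : ℂ) 2) : glue S G (S.σ j z) = G j z := by
  have := glue_eq (j := j) hG 1 hz
  rwa [one_smul] at this

theorem glue_inv {G : Fin S.N → ℂ → ℂ} (hG : IsFun S G) : Inv Γ (glue S G) := by
  intro γ e
  obtain ⟨γ', i, z, hz, rfl⟩ := S.cover e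
  have hz2 : z ∈ ball (0 : ℂ) 2 := mem_ball_zero_iff.2 (by linarith)
  rw [smul_smul, glue_eq hG _ hz2, glue_eq hG _ hz2]

/-- near a point of a sheet -/
theorem glue_local {G : Fin S.N → ℂ → ℂ} (hG : IsFun S G) {z : ℂ} (hz : z ∈ ball (0 : ℂ) 3) :
    ∃ i, z ∈ U S j i ∧ τ S j i z ∈ ball (0 : ℂ) 1 ∧
      ∀ (γ : Γ), ∀ᶠ u in 𝓝 z, glue S G (γ • S.σ j u) = G i (τ S j i u) := by
  obtain ⟨i, hU, hP⟩ := exists_P hz j
  refine ⟨i, hU, P_sub_one hP, fun γ => ?_⟩
  have h1 : ∀ᶠ u in 𝓝 z, τ S j i u ∈ ball (0 : ℂ) 2 :=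
    (analyticAt_tau hU).continuousAt.eventually
      (isOpen_ball.mem_nhds (ball_subset_ball (by norm_num) (P_sub_one hP)))
  filter_upwards [h1, isOpen_U.mem_nhds hU] with u h2 h3
  rw [sigma_eq h3, smul_smul, glue_eq hG _ h2]

theorem glue_smooth {G : Fin S.N → ℂ → ℂ} (hG : IsFun S G)
    (hs : ∀ j, ContDiffOn ℝ ∞ (G j) (ball 0 2)) : S.Smooth (glue S G) := by
  intro j γ z hz
  refine ContDiffAt.contDiffWithinAt ?_
  obtain ⟨i, hU, h1, h2⟩ := glue_local (j := j) hG hz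
  refine ContDiffAt.congr_of_eventuallyEq ?_ (h2 γ)
  have h3 : ContDiffAt ℂ ∞ (τ S j i) z := (analyticAt_tau hU).contDiffAt
  refine ContDiffAt.comp z ?_ (h3.restrict_scalars ℝ)
  exact (hs i).contDiffAt (isOpen_ball.mem_nhds (ball_subset_ball (by norm_num) h1))

theorem glue_add {G : Fin S.N → ℂ → ℂ} (hG : IsFun S G)
    (hs : ∀ j, DifferentiableOn ℂ (G j) (ball 0 2)) : Add S (glue S G) (fun _ : Γ => 0) where
  hol j z hz := by
    obtain ⟨i, hU, h1, h2⟩ := glue_local (j := j) hG hz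
    have h4 := h2 1
    simp only [one_smul] at h4
    have h3 : DifferentiableAt ℂ (fun u => G i (τ S j i u)) z :=
      DifferentiableAt.comp z ((hs i).differentiableAt
        (isOpen_ball.mem_nhds (ball_subset_ball (by norm_num) h1)))
        (analyticAt_tau hU).differentiableAt
    exact (h3.congr_of_eventuallyEq h4).differentiableWithinAt
  add γ e := by rw [glue_inv hG γ e, add_zero]

/-! ### Holomorphic functions on the surface are constant -/

/-- the maximum over the sheets -/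
theorem exists_max (j₀ : Fin S.N) {G : Fin S.N → ℂ → ℂ}
    (hG : ∀ j, ContinuousOn (G j) (closedBall 0 1)) :
    ∃ j, ∃ z ∈ closedBall (0 : ℂ) 1, ∀ i, ∀ w ∈ closedBall (0 : ℂ) 1, ‖G i w‖ ≤ ‖G j z‖ := by
  have h1 : ∀ j, ∃ z ∈ closedBall (0 : ℂ) 1, ∀ w ∈ closedBall (0 : ℂ) 1, ‖G j w‖ ≤ ‖G j z‖ := by
    intro j
    obtain ⟨z, hz, hm⟩ := (isCompact_closedBall (0 : ℂ) 1).exists_isMaxOn
      ⟨0, mem_closedBall_self zero_le_one⟩ (hG j).norm
    exact ⟨z, hz, fun w hw => hm hw⟩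
  choose z hz hm using h1
  have : Nonempty (Fin S.N) := ⟨j₀⟩
  obtain ⟨j, hj⟩ := Finite.exists_max fun j => ‖G j (z j)‖
  exact ⟨j, z j, hz j, fun i w hw => (hm i w hw).trans (hj i)⟩

theorem holo_const [ContinuousConstSMul Γ E] [PreconnectedSpace E] (j₀ : Fin S.N)
    {G : Fin S.N → ℂ → ℂ} (hG : IsFun S G) (hs : ∀ j, DifferentiableOn ℂ (G j) (ball 0 2)) :
    ∃ c, ∀ j, ∀ z ∈ ball (0 : ℂ) 2, G j z = c := by
  have hc : ∀ j, ContinuousOn (G j) (closedBall 0 1) := fun j =>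
    (hs j).continuousOn.mono (closedBall_subset_ball (by norm_num))
  obtain ⟨j, z, hz, hm⟩ := exists_max j₀ hc
  have hz2 : z ∈ ball (0 : ℂ) 2 := closedBall_subset_ball (by norm_num) hz
  have hz3 : z ∈ ball (0 : ℂ) 3 := ball_subset_ball (by norm_num) hz2
  have hmax : IsLocalMax (norm ∘ G j) z := by
    filter_upwards [isOpen_ball.mem_nhds hz2] with u hu
    have hu3 : u ∈ ball (0 : ℂ) 3 := ball_subset_ball (by norm_num) hu
    obtain ⟨i, hU, hP⟩ := exists_P hu3 j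
    have h1 := P_sub_one hP
    show ‖G j u‖ ≤ ‖G j z‖
    rw [hG j i u hU hu (ball_subset_ball (by norm_num) h1)]
    exact hm i _ (ball_subset_closedBall h1)
  have hd : ∀ᶠ u in 𝓝 z, DifferentiableAt ℂ (G j) u := by
    filter_upwards [isOpen_ball.mem_nhds hz2] with u hu
    exact (hs j).differentiableAt (isOpen_ball.mem_nhds hu)
  have h2 := Complex.eventually_eq_of_isLocalMax_norm hd hmax
  have h3 : ∀ᶠ e in 𝓝 (S.σ j z), glue S G e = glue S G (S.σ j z) := by
    rw [← S.map_nhds j z hz3, eventually_map]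
    filter_upwards [h2, isOpen_ball.mem_nhds hz2] with u hu hu2
    rw [glue_sheet hG hu2, glue_sheet hG hz2, hu]
  refine ⟨G j z, fun i w hw => ?_⟩
  rw [← glue_sheet hG hw, (glue_add hG hs).const_of_eventually h3, glue_sheet hG hz2]

/-! ### Boundedness -/

variable {v : ℕ → E → ℂ} {H w : ℕ → Fin S.N → ℂ → ℂ} {ρ : Fin S.N → ℂ → ℂ}

theorem lint_lt_top {ρ : ℂ → ℂ} (h : Continuous ρ) : ∫⁻ z in ball (0 : ℂ) 2, ‖ρ z‖ₑ ≠ ⊤ := by
  obtain ⟨B, hB⟩ := (isCompact_closedBall (0 : ℂ) 2).exists_bound_of_continuousOn h.continuousOn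
  refine ne_of_lt (lt_of_le_of_lt (setLIntegral_mono' (g := fun _ => ENNReal.ofReal B)
    measurableSet_ball fun z hz => ?_) ?_)
  · rw [← ofReal_norm]
    exact ENNReal.ofReal_le_ofReal (hB z (ball_subset_closedBall hz))
  · rw [setLIntegral_const]
    exact ENNReal.mul_lt_top ENNReal.ofReal_lt_top measure_ball_lt_top

/-- **Boundedness** of the holomorphic parts -/
theorem Dec.bounded [ContinuousConstSMul Γ E] [PreconnectedSpace E] {𝒰 : Ultrafilter ℕ}
    (hd : Dec S 𝒰 v H w ρ) (j₀ : Fin S.N) (h0 : ∀ k, H k j₀ 0 = 0) :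
    ∃ M, ∀ᶠ k in (𝒰 : Filter ℕ), ∀ j, ∀ z ∈ ball (0 : ℂ) 1, ‖H k j z‖ ≤ M := by
  by_contra hcon
  push Not at hcon
  have hcH : ∀ k j, ContinuousOn (H k j) (closedBall 0 1) := fun k j =>
    (hd.hol k j).continuousOn.mono (closedBall_subset_ball (by norm_num))
  choose jm zm hzm hmax using fun k => exists_max j₀ (hcH k)
  set n : ℕ → ℝ := fun k => ‖H k (jm k) (zm k)‖ with hn
  have hbig : ∀ M : ℝ, ∀ᶠ k in (𝒰 : Filter ℕ), M < n k := by
    intro M
    filter_upwards [hcon M] with k hk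
    obtain ⟨j, z, hz, hlt⟩ := hk
    exact hlt.trans_le (hmax k j z (ball_subset_closedBall hz))
  have hinv : Tendsto (fun k => (n k)⁻¹) (𝒰 : Filter ℕ) (𝓝 0) := by
    refine tendsto_inv_atTop_zero.comp ?_
    rw [Filter.tendsto_atTop]
    intro b
    filter_upwards [hbig b] with k hk using hk.le
  -- the normalised data
  set H' : ℕ → Fin S.N → ℂ → ℂ := fun k j z => ((n k)⁻¹ : ℝ) * H k j z with hH'
  set w' : ℕ → Fin S.N → ℂ → ℂ := fun k j z => ((n k)⁻¹ : ℝ) * (w k j z + ρ j z) with hw'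
  have hd' : Dec S 𝒰 (fun k e => ((n k)⁻¹ : ℝ) * v k e) H' w' (fun _ _ => 0) := by
    refine ⟨fun k => (hd.inv k).const_mul _, fun k j z hz => ?_, fun k j => ?_, fun k j => ?_,
      fun j => ?_, fun j => continuous_const⟩
    · simp only [hH', hw']
      rw [hd.eq k j z hz]
      ring
    · exact (hd.hol k j).const_mul _
    · exact measurable_const.mul ((hd.meas k j).add (hd.cont j).measurable)
    · have h1 : ∀ k, ∫⁻ z in ball (0 : ℂ) 2, ‖w' k j z‖ₑ ≤ ‖(((n k)⁻¹ : ℝ) : ℂ)‖ₑ *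
          ((∫⁻ z in ball (0 : ℂ) 2, ‖w k j z‖ₑ) + ∫⁻ z in ball (0 : ℂ) 2, ‖ρ j z‖ₑ) := by
        intro k
        rw [← lintegral_add_left (hd.meas k j).enorm, ← lintegral_const_mul' _ _ enorm_ne_top]
        refine lintegral_mono fun z => ?_
        simp only [hw']
        rw [enorm_mul]
        gcongr
        exact enorm_add_le _ _
      have h2 : Tendsto (fun k => ‖(((n k)⁻¹ : ℝ) : ℂ)‖ₑ) (𝒰 : Filter ℕ) (𝓝 0) := by
        have h3 : Tendsto (fun k => (((n k)⁻¹ : ℝ) : ℂ)) (𝒰 : Filter ℕ) (𝓝 0) := by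
          have := (Complex.continuous_ofReal.tendsto 0).comp hinv
          rwa [Complex.ofReal_zero] at this
        have := h3.enorm
        rwa [enorm_zero] at this
      have h4 : Tendsto (fun k => ‖(((n k)⁻¹ : ℝ) : ℂ)‖ₑ *
          ((∫⁻ z in ball (0 : ℂ) 2, ‖w k j z‖ₑ) + ∫⁻ z in ball (0 : ℂ) 2, ‖ρ j z‖ₑ))
          (𝒰 : Filter ℕ) (𝓝 (0 * (0 + ∫⁻ z in ball (0 : ℂ) 2, ‖ρ j z‖ₑ))) := by
        refine ENNReal.Tendsto.mul h2 (Or.inr ?_) ((hd.small j).add tendsto_const_nhds)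
          (Or.inr ENNReal.zero_ne_top)
        rw [zero_add]
        exact lint_lt_top (hd.cont j)
      rw [zero_mul] at h4
      exact tendsto_of_tendsto_of_tendsto_of_le_of_le tendsto_const_nhds h4
        (fun k => zero_le) h1
  have hbd : ∀ k j, ∀ z ∈ closedBall (0 : ℂ) 1, ‖H' k j z‖ ≤ 1 := by
    intro k j z hz
    simp only [hH']
    rw [norm_mul, Complex.norm_real, Real.norm_eq_abs, abs_inv, abs_of_nonneg (norm_nonneg _)]
    have h1 := hmax k j z hz
    rcases (norm_nonneg (H k (jm k) (zm k))).eq_or_lt with h2 | h2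
    · rw [← h2, inv_zero, zero_mul]
      exact zero_le_one
    · rw [inv_mul_le_iff₀ h2, mul_one]
      exact h1
  obtain ⟨G, hG1, hG2, hG3⟩ := hd'.limit (M := 1)
    (Eventually.of_forall fun k j z hz => hbd k j z (ball_subset_closedBall hz))
  have hF : IsFun S G := by
    intro j i z hz hz2 hτ2
    have := hG3 j i z hz hz2 hτ2
    simpa using this
  obtain ⟨c, hc⟩ := holo_const j₀ hF hG1
  have hc0 : c = 0 := by
    have h1 : Tendsto (fun k => H' k j₀ 0) (𝒰 : Filter ℕ) (𝓝 (G j₀ 0)) :=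
      (hG2 j₀).tendsto_at (mem_ball_self (by norm_num))
    have h2 : ∀ k, H' k j₀ 0 = 0 := by
      intro k
      simp only [hH']
      rw [h0, mul_zero]
    simp only [h2] at h1
    have h3 := tendsto_nhds_unique h1 tendsto_const_nhds
    rw [← hc j₀ 0 (mem_ball_self (by norm_num)), h3]
  have hun : ∀ᶠ k in (𝒰 : Filter ℕ), ∀ j, ∀ z ∈ closedBall (0 : ℂ) 1, ‖H' k j z‖ < 1 / 2 := by
    rw [eventually_all]
    intro j
    have h1 : TendstoUniformlyOn (fun k => H' k j) (G j) (𝒰 : Filter ℕ) (closedBall 0 1) :=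
      (tendstoLocallyUniformlyOn_iff_forall_isCompact isOpen_ball).1 (hG2 j) _
        (closedBall_subset_ball (by norm_num)) (isCompact_closedBall _ _)
    rw [Metric.tendstoUniformlyOn_iff] at h1
    filter_upwards [h1 (1 / 2) (by norm_num)] with k hk z hz
    have h2 := hk z hz
    rwa [hc j z (closedBall_subset_ball (by norm_num) hz), hc0, dist_zero_left] at h2
  obtain ⟨k, hk1, hk2⟩ := (hun.and (hbig 0)).exists
  have h1 := hk1 (jm k) (zm k) (hzm k)
  simp only [hH'] at h1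
  rw [norm_mul, Complex.norm_real, Real.norm_eq_abs, abs_inv, abs_of_nonneg (norm_nonneg _)] at h1
  have h2 : (n k)⁻¹ * ‖H k (jm k) (zm k)‖ = 1 := inv_mul_cancel₀ (ne_of_gt hk2)
  rw [h2] at h1
  norm_num at h1

end Vale.Agent.P281.H125
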