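import Vale.Agent.P281.H125.Bump
import Vale.Agent.P116.FK.Pom
import Mathlib.Analysis.Calculus.ContDiff.Convolution

/-!
# P281, theorem T-D (helper125): the Cauchy transform of test functions
-/

open Set Filter Metric MeasureTheory
open scoped Topology ContDiff ComplexConjugate ENNReal Convolution

noncomputable section

namespace Vale.Agent.P281.H125

open Vale.Agent.P281.H64

theorem integrableOn_inv_ball (R : ℝ) : IntegrableOn (fun z : ℂ => ‖z‖⁻¹) (ball (0 : ℂ) R) := by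
  rw [integrableOn_fun_norm_addHaar (volume : Measure ℂ) (f := fun r : ℝ => r⁻¹)]
  rw [Complex.finrank_real_complex]
  have : IntegrableOn (fun _ : ℝ => (1 : ℝ)) (Set.Ioo 0 R) := by
    simp
  refine this.congr_fun ?_ measurableSet_Ioo
  intro r hr
  have : r ≠ 0 := ne_of_gt hr.1
  simp only [smul_eq_mul]
  rw [show 2 - 1 = 1 from rfl, pow_one, mul_inv_cancel₀ this]

theorem locallyIntegrable_inv : LocallyIntegrable (fun z : ℂ => z⁻¹) := by
  have h : LocallyIntegrable (fun z : ℂ => ‖z‖⁻¹) := by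
    intro x
    exact ⟨ball 0 (‖x‖ + 1), isOpen_ball.mem_nhds (by rw [mem_ball_zero_iff]; linarith),
      integrableOn_inv_ball _⟩
  refine h.mono measurable_inv.aestronglyMeasurable (Eventually.of_forall fun z => ?_)
  simp

/-- The Cauchy transform. -/
def CT (φ : ℂ → ℂ) (z : ℂ) : ℂ := ((Real.pi : ℝ) : ℂ)⁻¹ * ∫ w, w⁻¹ * φ (z - w)

theorem CT_eq (φ : ℂ → ℂ) : CT φ = fun z => ((Real.pi : ℝ) : ℂ)⁻¹ *
    ((fun w : ℂ => w⁻¹) ⋆[ContinuousLinearMap.mul ℝ ℂ, volume] φ) z := rfl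

theorem CT_contDiff {φ : ℂ → ℂ} (hφ : ContDiff ℝ ∞ φ) (hc : HasCompactSupport φ) :
    ContDiff ℝ ∞ (CT φ) := by
  rw [CT_eq]
  refine contDiff_const.mul ?_
  exact hc.contDiff_convolution_right _ locallyIntegrable_inv hφ

theorem CT_dbar {φ : ℂ → ℂ} (hφ : ContDiff ℝ ∞ φ) (hc : HasCompactSupport φ) (z : ℂ) :
    dbar (CT φ) z = φ z := by
  have hφ1 : ContDiff ℝ 1 φ := hφ.of_le (by simp)
  have h1 : HasFDerivAt ((fun w : ℂ => w⁻¹) ⋆[ContinuousLinearMap.mul ℝ ℂ, volume] φ) _ z :=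
    hc.hasFDerivAt_convolution_right (ContinuousLinearMap.mul ℝ ℂ) locallyIntegrable_inv hφ1 z
  have h2 : HasFDerivAt (CT φ) _ z := h1.const_mul (((Real.pi : ℝ) : ℂ)⁻¹)
  have hd : ∀ v : ℂ, fderiv ℝ (CT φ) z v = ((Real.pi : ℝ) : ℂ)⁻¹ *
      ∫ w, w⁻¹ * fderiv ℝ φ (z - w) v := by
    intro v
    rw [h2.fderiv, _root_.smul_apply]
    rw [convolution_precompR_apply _ locallyIntegrable_inv (hc.fderiv (𝕜 := ℝ))
      (hφ1.continuous_fderiv (by simp))]
    rfl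
  have hint : ∀ v : ℂ, Integrable fun w : ℂ => w⁻¹ * fderiv ℝ φ (z - w) v := by
    intro v
    have h3 : Continuous fun w : ℂ => fderiv ℝ φ (z - w) v :=
      ((hφ1.continuous_fderiv (by simp)).comp (continuous_const.sub continuous_id)).clm_apply
        continuous_const
    have h4 : HasCompactSupport fun w : ℂ => fderiv ℝ φ (z - w) v := by
      have h5 : HasCompactSupport fun w : ℂ => fderiv ℝ φ w v :=
        (hc.fderiv (𝕜 := ℝ)).comp_left (g := fun L : ℂ →L[ℝ] ℂ => L v) (by simp)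
      exact h5.comp_homeomorph (Homeomorph.subLeft z)
    have := locallyIntegrable_inv.integrable_smul_left_of_hasCompactSupport h3 h4
    refine this.congr (Eventually.of_forall fun w => ?_)
    simp [mul_comm]
  -- Pompeiu
  have hψ : ContDiff ℝ 1 fun w => φ (z - w) := hφ1.comp (contDiff_const.sub contDiff_id)
  have hψc : HasCompactSupport fun w => φ (z - w) := hc.comp_homeomorph (Homeomorph.subLeft z)
  have h6 := Vale.Agent.P116.FK.pompeiu hψ hψc
  have h7 : ∀ w, Vale.Agent.P116.FK.db (fun w => φ (z - w)) w =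
      -(fderiv ℝ φ (z - w) 1 + Complex.I * fderiv ℝ φ (z - w) Complex.I) := by
    intro w
    have h8 : HasFDerivAt (fun w => φ (z - w))
        ((fderiv ℝ φ (z - w)).comp (-(ContinuousLinearMap.id ℝ ℂ))) w := by
      have h9 : HasFDerivAt (fun w : ℂ => z - w) (-(ContinuousLinearMap.id ℝ ℂ)) w :=
        (hasFDerivAt_id w).const_sub z
      exact HasFDerivAt.comp w (hφ1.differentiable (by simp) (z - w)).hasFDerivAt h9
    rw [Vale.Agent.P116.FK.db, h8.fderiv]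
    simp only [ContinuousLinearMap.comp_apply, _root_.neg_apply, ContinuousLinearMap.id_apply,
      map_neg]
    ring
  simp only [h7, sub_zero] at h6
  have h10 : ∫ w : ℂ, w⁻¹ * -(fderiv ℝ φ (z - w) 1 +
      Complex.I * fderiv ℝ φ (z - w) Complex.I) =
      -((∫ w, w⁻¹ * fderiv ℝ φ (z - w) 1) + Complex.I *
        ∫ w, w⁻¹ * fderiv ℝ φ (z - w) Complex.I) := by
    rw [← integral_const_mul, ← integral_add (hint 1) ((hint Complex.I).const_mul _),
      ← integral_neg]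
    refine integral_congr_ae (Eventually.of_forall fun w => ?_)
    simp only
    ring
  rw [h10] at h6
  have hpi : ((Real.pi : ℝ) : ℂ) ≠ 0 := by exact_mod_cast Real.pi_ne_zero
  rw [dbar, hd, hd]
  have h11 : (∫ w, w⁻¹ * fderiv ℝ φ (z - w) 1) + Complex.I *
        ∫ w, w⁻¹ * fderiv ℝ φ (z - w) Complex.I = 2 * Real.pi * φ z := by
    linear_combination -h6
  have h12 : ((Real.pi : ℝ) : ℂ)⁻¹ * ∫ w, w⁻¹ * fderiv ℝ φ (z - w) 1 =
      ((Real.pi : ℝ) : ℂ)⁻¹ * (2 * Real.pi * φ z - Complex.I *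
        ∫ w, w⁻¹ * fderiv ℝ φ (z - w) Complex.I) := by
    rw [← h11]; ring
  rw [h12]
  field_simp
  ring

/-- the constant in the `L¹` bound -/
def CC : ℝ≥0∞ := ‖((Real.pi : ℝ) : ℂ)⁻¹‖ₑ * ∫⁻ u in ball (0 : ℂ) 6, ‖(u : ℂ)⁻¹‖ₑ

theorem CC_lt_top : CC < ⊤ := by
  refine ENNReal.mul_lt_top enorm_lt_top ?_
  have h := (integrableOn_inv_ball 6).2
  rw [hasFiniteIntegral_iff_enorm] at h
  refine lt_of_le_of_lt (lintegral_mono fun u => ?_) h
  rw [← ofReal_norm, ← ofReal_norm, norm_inv, norm_inv, norm_norm]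

/-- **`L¹` bound** -/
theorem CT_L1 {φ : ℂ → ℂ} (hφ : Measurable φ) (h0 : ∀ z, z ∉ ball (0 : ℂ) 3 → φ z = 0) :
    ∫⁻ z in ball (0 : ℂ) 3, ‖CT φ z‖ₑ ≤ CC * ∫⁻ w in ball (0 : ℂ) 3, ‖φ w‖ₑ := by
  have h1 : ∀ z, ‖CT φ z‖ₑ ≤ ‖((Real.pi : ℝ) : ℂ)⁻¹‖ₑ * ∫⁻ w, ‖(z - w)⁻¹‖ₑ * ‖φ w‖ₑ := by
    intro z
    rw [CT, enorm_mul]
    gcongr
    refine (enorm_integral_le_lintegral_enorm _).trans (le_of_eq ?_)
    rw [← lintegral_sub_left_eq_self _ z]
    refine lintegral_congr fun w => ?_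
    rw [enorm_mul, sub_sub_cancel]
  have hm : Measurable fun p : ℂ × ℂ => ‖(p.1 - p.2)⁻¹‖ₑ * ‖φ p.2‖ₑ := by fun_prop
  calc ∫⁻ z in ball (0 : ℂ) 3, ‖CT φ z‖ₑ
      ≤ ∫⁻ z in ball (0 : ℂ) 3, ‖((Real.pi : ℝ) : ℂ)⁻¹‖ₑ * ∫⁻ w, ‖(z - w)⁻¹‖ₑ * ‖φ w‖ₑ :=
        lintegral_mono h1
    _ = ‖((Real.pi : ℝ) : ℂ)⁻¹‖ₑ * ∫⁻ z in ball (0 : ℂ) 3, ∫⁻ w, ‖(z - w)⁻¹‖ₑ * ‖φ w‖ₑ :=
        lintegral_const_mul' _ _ enorm_ne_top
    _ = ‖((Real.pi : ℝ) : ℂ)⁻¹‖ₑ * ∫⁻ w, ∫⁻ z in ball (0 : ℂ) 3, ‖(z - w)⁻¹‖ₑ * ‖φ w‖ₑ := by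
        rw [lintegral_lintegral_swap hm.aemeasurable]
    _ ≤ ‖((Real.pi : ℝ) : ℂ)⁻¹‖ₑ * ∫⁻ w, (∫⁻ u in ball (0 : ℂ) 6, ‖(u : ℂ)⁻¹‖ₑ) *
          (ball (0 : ℂ) 3).indicator (fun w => ‖φ w‖ₑ) w := by
        gcongr with w
        by_cases hw : w ∈ ball (0 : ℂ) 3
        · rw [indicator_of_mem hw, lintegral_mul_const' _ _ enorm_ne_top]
          refine mul_le_mul' ?_ le_rfl
          rw [← lintegral_indicator measurableSet_ball, ← lintegral_indicator measurableSet_ball,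
            ← lintegral_add_right_eq_self _ w]
          refine lintegral_mono fun u => ?_
          by_cases hu : u + w ∈ ball (0 : ℂ) 3
          · rw [indicator_of_mem hu, add_sub_cancel_right, indicator_of_mem]
            rw [mem_ball_zero_iff] at *
            have h2 : ‖u‖ ≤ ‖u + w‖ + ‖w‖ := by
              have := norm_sub_le (u + w) w
              rwa [add_sub_cancel_right] at this
            linarith
          · rw [indicator_of_notMem hu]
            exact zero_le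
        · rw [h0 w hw, indicator_of_notMem hw]
          simp
    _ = CC * ∫⁻ w in ball (0 : ℂ) 3, ‖φ w‖ₑ := by
        rw [lintegral_const_mul _ (hφ.enorm.indicator measurableSet_ball),
          lintegral_indicator measurableSet_ball, CC, mul_assoc]

end Vale.Agent.P281.H125
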