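import Vale.Agent.P281.H125.Split
import Vale.Agent.P281.H125.Glue
import Vale.Agent.P281.H125.T

/-!
# P281, theorem T-D (helper125): the Hodge decomposition of smooth (0,1)-forms
-/

open Set Filter Metric MeasureTheory
open scoped Topology ContDiff ComplexConjugate ENNReal InnerProductSpace

noncomputable section

namespace Vale.Agent.P281.H125

open Vale.Agent.P281.H64

variable {E Γ : Type} [TopologicalSpace E] [Group Γ] [MulAction Γ E] {S : Sheets E Γ}
  {i j : Fin S.N}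

/-- the cutoff -/
theorem exists_cutoff : ∃ χ : ℂ → ℂ, Tst χ ∧ (∀ z ∈ ball (0 : ℂ) 2, χ z = 1) ∧
    ∀ z, ‖χ z‖ₑ ≤ 1 := by
  let b : ContDiffBump (0 : ℂ) := ⟨2, 5 / 2, by norm_num, by norm_num⟩
  refine ⟨fun z => (b z : ℂ), ⟨?_, 5 / 2, by norm_num, fun z hz => ?_⟩, fun z hz => ?_,
    fun z => ?_⟩
  · exact Complex.ofRealCLM.contDiff.comp b.contDiff
  · have h1 : b z ≠ 0 := by
      intro h
      exact hz (by simp [h])
    have h2 : z ∈ Function.support b := h1
    rw [b.support_eq] at h2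
    exact (mem_ball_zero_iff.1 h2).le
  · have h1 : b z = 1 := b.one_of_mem_closedBall (ball_subset_closedBall hz)
    simp [h1]
  · rw [← ofReal_norm, Complex.norm_real, Real.norm_eq_abs, abs_of_nonneg b.nonneg]
    exact ENNReal.ofReal_le_one.2 b.le_one

/-- smooth function on the disc times a test function -/
theorem cut_contDiff {χ g : ℂ → ℂ} (hχ : Tst χ) (hg : ContDiffOn ℝ ∞ g (ball 0 3)) :
    Tst fun z => χ z * g z := by
  obtain ⟨r, hr, hs⟩ := hχ.supp
  refine ⟨?_, r, hr, fun z hz => hs z (left_ne_zero_of_mul hz)⟩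
  rw [contDiff_iff_contDiffAt]
  intro z
  by_cases hz : z ∈ ball (0 : ℂ) 3
  · exact hχ.smooth.contDiffAt.mul (hg.contDiffAt (isOpen_ball.mem_nhds hz))
  · have h1 : (fun z => χ z * g z) =ᶠ[𝓝 z] fun _ => 0 := by
      have h2 : ∀ᶠ u in 𝓝 z, r < ‖u‖ := by
        refine continuous_norm.continuousAt.eventually (lt_mem_nhds ?_)
        rw [mem_ball_zero_iff] at hz
        linarith
      filter_upwards [h2] with u hu
      have h3 : χ u = 0 := by
        by_contra h4
        exact absurd (hs u h4) (not_le.2 hu)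
      rw [h3, zero_mul]
    exact contDiffAt_const.congr_of_eventuallyEq h1

theorem Tst.zero_off {φ : ℂ → ℂ} (h : Tst φ) {z : ℂ} (hz : z ∉ ball (0 : ℂ) 3) : φ z = 0 := by
  obtain ⟨r, hr, hs⟩ := h.supp
  by_contra h1
  have := hs z h1
  rw [mem_ball_zero_iff] at hz
  linarith

theorem dbar_sub {f g : ℂ → ℂ} {z : ℂ} (hf : DifferentiableAt ℝ f z)
    (hg : DifferentiableAt ℝ g z) : dbar (fun u => f u - g u) z = dbar f z - dbar g z := by
  have h1 : HasFDerivAt (fun u => f u - g u) (fderiv ℝ f z - fderiv ℝ g z) z :=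
    hf.hasFDerivAt.sub hg.hasFDerivAt
  rw [dbar, dbar, dbar, h1.fderiv]
  simp only [_root_.sub_apply]
  ring

theorem holo_of_dbar {f : ℂ → ℂ} {z : ℂ} (hf : DifferentiableAt ℝ f z) (h : dbar f z = 0) :
    DifferentiableAt ℂ f z := by
  rw [dbar] at h
  have h1 : fderiv ℝ f z 1 + Complex.I * fderiv ℝ f z Complex.I = 0 := by
    have := congrArg (fun x => 2 * x) h
    simpa using this
  refine (differentiableAt_complex_iff_differentiableAt_real).2 ⟨hf, ?_⟩
  rw [smul_eq_mul]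
  linear_combination (-Complex.I) * h1 + (fderiv ℝ f z Complex.I) * Complex.I_mul_I

/-- **Closed range**: a form which is a limit of `∂̄v k` is `∂̄v`. -/
theorem exists_dbar [ContinuousConstSMul Γ E] [PreconnectedSpace E] (j₀ : Fin S.N)
    {r : Fin S.N → ℂ → ℂ} (hr : IsForm S r) (hrs : ∀ j, ContDiffOn ℝ ∞ (r j) (ball 0 3))
    {v : ℕ → E → ℂ} (hv : ∀ k, S.Smooth (v k) ∧ Inv Γ (v k))
    (hlim : ∀ j, Tendsto (fun k => ∫⁻ z in ball (0 : ℂ) 3, ‖db S (v k) j z - r j z‖ₑ) atTop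
      (𝓝 0)) :
    ∃ u : E → ℂ, S.Smooth u ∧ Inv Γ u ∧ ∀ j, ∀ z ∈ ball (0 : ℂ) 3, db S u j z = r j z := by
  obtain ⟨χ, hχ, hχ1, hχb⟩ := exists_cutoff
  -- the fixed part
  set ρ : Fin S.N → ℂ → ℂ := fun j => CT fun z => χ z * r j z with hρ
  have hρT : ∀ j, Tst fun z => χ z * r j z := fun j => cut_contDiff hχ (hrs j)
  have hρs : ∀ j, ContDiff ℝ ∞ (ρ j) := fun j => CT_contDiff (hρT j).smooth (hρT j).compact
  have hρd : ∀ j, ∀ z ∈ ball (0 : ℂ) 2, dbar (ρ j) z = r j z := by
    intro j z hz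
    rw [hρ]
    show dbar (CT fun z => χ z * r j z) z = r j z
    rw [CT_dbar (hρT j).smooth (hρT j).compact, hχ1 z hz, one_mul]
  -- the small part
  have hgs : ∀ k j, ContDiffOn ℝ ∞ (fun z => db S (v k) j z - r j z) (ball 0 3) := fun k j =>
    (db_smooth (hv k).1 j).sub (hrs j)
  set w : ℕ → Fin S.N → ℂ → ℂ := fun k j => CT fun z => χ z * (db S (v k) j z - r j z) with hw
  have hwT : ∀ k j, Tst fun z => χ z * (db S (v k) j z - r j z) := fun k j =>
    cut_contDiff hχ (hgs k j)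
  have hws : ∀ k j, ContDiff ℝ ∞ (w k j) := fun k j =>
    CT_contDiff (hwT k j).smooth (hwT k j).compact
  have hwd : ∀ k j, ∀ z ∈ ball (0 : ℂ) 2, dbar (w k j) z = db S (v k) j z - r j z := by
    intro k j z hz
    rw [hw]
    show dbar (CT fun z => χ z * (db S (v k) j z - r j z)) z = _
    rw [CT_dbar (hwT k j).smooth (hwT k j).compact, hχ1 z hz, one_mul]
  -- the holomorphic part
  set H : ℕ → Fin S.N → ℂ → ℂ := fun k j z => v k (S.σ j z) - (w k j z + ρ j z) with hH
  set c : ℕ → ℂ := fun k => H k j₀ 0 with hc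
  have hHd : ∀ k j, DifferentiableOn ℂ (H k j) (ball 0 2) := by
    intro k j z hz
    have hz3 : z ∈ ball (0 : ℂ) 3 := ball_subset_ball (by norm_num) hz
    have h1 := Smooth.diff (hv k).1 j hz3
    have h2 : DifferentiableAt ℝ (w k j) z := (hws k j).differentiable (by simp) z
    have h3 : DifferentiableAt ℝ (ρ j) z := (hρs j).differentiable (by simp) z
    have h23 : DifferentiableAt ℝ (fun z => w k j z + ρ j z) z := h2.add h3
    have hH1 : DifferentiableAt ℝ (H k j) z := h1.sub h23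
    refine (holo_of_dbar hH1 ?_).differentiableWithinAt
    have h5 : dbar (H k j) z = dbar (fun z => v k (S.σ j z)) z -
        dbar (fun z => w k j z + ρ j z) z := dbar_sub h1 h23
    rw [h5, dbar_add h2 h3, hwd k j z hz, hρd j z hz]
    show db S (v k) j z - _ = 0
    ring
  have hd : ∀ 𝒰 : Ultrafilter ℕ, (𝒰 : Filter ℕ) ≤ atTop →
      Dec S 𝒰 (fun k e => v k e - c k) (fun k j z => H k j z - c k) w ρ := by
    intro 𝒰 h𝒰
    refine ⟨fun k => (hv k).2.sub_const _, fun k j z hz => ?_, fun k j => ?_,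
      fun k j => (hws k j).continuous.measurable, fun j => ?_, fun j => (hρs j).continuous⟩
    · simp only [hH]
      ring
    · exact (hHd k j).sub_const _
    · have h1 : ∀ k, ∫⁻ z in ball (0 : ℂ) 2, ‖w k j z‖ₑ ≤
          CC * ∫⁻ z in ball (0 : ℂ) 3, ‖db S (v k) j z - r j z‖ₑ := by
        intro k
        calc ∫⁻ z in ball (0 : ℂ) 2, ‖w k j z‖ₑ ≤ ∫⁻ z in ball (0 : ℂ) 3, ‖w k j z‖ₑ :=
              lintegral_mono_set (ball_subset_ball (by norm_num))
          _ ≤ CC * ∫⁻ z in ball (0 : ℂ) 3, ‖χ z * (db S (v k) j z - r j z)‖ₑ :=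
              CT_L1 (hwT k j).smooth.continuous.measurable fun z hz => (hwT k j).zero_off hz
          _ ≤ _ := by
              refine mul_le_mul' le_rfl (lintegral_mono fun z => ?_)
              rw [enorm_mul]
              calc ‖χ z‖ₑ * ‖db S (v k) j z - r j z‖ₑ ≤ 1 * ‖db S (v k) j z - r j z‖ₑ :=
                    mul_le_mul' (hχb z) le_rfl
                _ = _ := one_mul _
      have h2 : Tendsto (fun k => CC * ∫⁻ z in ball (0 : ℂ) 3, ‖db S (v k) j z - r j z‖ₑ)
          (𝒰 : Filter ℕ) (𝓝 (CC * 0)) :=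
        ENNReal.Tendsto.const_mul ((hlim j).mono_left h𝒰) (Or.inr CC_lt_top.ne)
      rw [mul_zero] at h2
      exact tendsto_of_tendsto_of_tendsto_of_le_of_le tendsto_const_nhds h2
        (fun k => zero_le) h1
  have hd' := hd (Ultrafilter.of atTop) (Ultrafilter.of_le atTop)
  obtain ⟨M, hM⟩ := hd'.bounded j₀ (fun k => by simp only [hc, sub_self])
  obtain ⟨G, hG1, -, hG3⟩ := hd'.limit hM
  have hF : IsFun S fun j z => G j z + ρ j z := fun j i z hz hz2 hτ2 => hG3 j i z hz hz2 hτ2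
  have hsm : ∀ j, ContDiffOn ℝ ∞ (fun z => G j z + ρ j z) (ball 0 2) := by
    intro j
    have h1 : ContDiffOn ℂ ∞ (G j) (ball 0 2) := (hG1 j).contDiffOn isOpen_ball
    exact (h1.restrict_scalars ℝ).add (hρs j).contDiffOn
  have hu := glue_smooth hF hsm
  have hui := glue_inv hF
  refine ⟨glue S fun j z => G j z + ρ j z, hu, hui, fun j z hz => ?_⟩
  -- `∂̄` on the discs of radius 2
  have h2 : ∀ j, ∀ z ∈ ball (0 : ℂ) 2,
      db S (glue S fun j z => G j z + ρ j z) j z = r j z := by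
    intro j z hz
    have h3 : (fun u => glue S (fun j z => G j z + ρ j z) (S.σ j u)) =ᶠ[𝓝 z]
        fun u => G j u + ρ j u := by
      filter_upwards [isOpen_ball.mem_nhds hz] with u hu using glue_sheet hF hu
    have h4 : DifferentiableAt ℂ (G j) z := (hG1 j).differentiableAt (isOpen_ball.mem_nhds hz)
    rw [db, dbar_congr h3, dbar_add (h4.restrictScalars ℝ)
      ((hρs j).differentiable (by simp) z), dbar_of_holo h4, hρd j z hz, zero_add]
  obtain ⟨i, hU, hP⟩ := exists_P hz j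
  rw [db_form hu hui j i z hU, h2 i _ (ball_subset_ball (by norm_num) (P_sub_one hP)),
    hr j i z hU]

/-- **Block C1**: every smooth `(0,1)`-form is `∂̄v` plus the conjugate of `dh`. -/
theorem c1 : C1Stmt := by
  intro E Γ _ _ _ _ _ _ S a ha
  obtain ⟨f, r, v, hf, hr, hrs, har, hv, hlim⟩ := exists_split ha
  obtain ⟨h, c, hadd, hder⟩ := exists_prim hf
  obtain ⟨e₀⟩ : Nonempty E := inferInstance
  obtain ⟨-, j₀, -, -, -⟩ := S.cover e₀
  obtain ⟨u, hu, hui, hud⟩ := exists_dbar j₀ hr hrs hv hlim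
  refine ⟨u, h, c, hu, hui, hadd, fun i z hz => ?_⟩
  rw [har i z hz, hder i z hz, ← hud i z hz]
  rfl

end Vale.Agent.P281.H125
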