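import Vale.Agent.P281.H125.Base

/-!
# P281, theorem T-D (helper125): change of variables between the sheets
-/

open Set Filter Metric MeasureTheory
open scoped Topology ContDiff ComplexConjugate ENNReal

noncomputable section

namespace Vale.Agent.P281.H125

open Vale.Agent.P281.H64

/-- the differential of a holomorphic function, as a real linear map -/
def mulR (c : ℂ) : ℂ →L[ℝ] ℂ := (ContinuousLinearMap.toSpanSingleton ℂ c).restrictScalars ℝ

theorem mulR_apply (c v : ℂ) : mulR c v = v * c := by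
  simp [mulR]

theorem det_mulR (c : ℂ) : (mulR c).det = ‖c‖ ^ 2 := by
  have h1 : (mulR c).det = LinearMap.det (Algebra.lmul ℝ ℂ c) := by
    unfold ContinuousLinearMap.det
    congr 1
    ext v
    simp [mulR, mul_comm]
  rw [h1, ← Complex.normSq_eq_norm_sq, ← Algebra.norm_complex_apply]
  rfl

theorem hasFDerivAt_mulR {f : ℂ → ℂ} {f' z : ℂ} (h : HasDerivAt f f' z) :
    HasFDerivAt f (mulR f') z := by
  exact (h.hasFDerivAt).restrictScalars ℝ

variable {E Γ : Type} [TopologicalSpace E] [Group Γ] [MulAction Γ E] {S : Sheets E Γ}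
  {i j : Fin S.N}

theorem hasFDerivWithinAt_tau {A : Set ℂ} (hA : A ⊆ U S i j) {z : ℂ} (hz : z ∈ A) :
    HasFDerivWithinAt (τ S i j) (mulR (deriv (τ S i j) z)) A z :=
  (hasFDerivAt_mulR (analyticAt_tau (hA hz)).differentiableAt.hasDerivAt).hasFDerivWithinAt

theorem lintegral_tau {A : Set ℂ} (hA : A ⊆ U S i j) (hm : MeasurableSet A) (G : ℂ → ℝ≥0∞) :
    ∫⁻ w in τ S i j '' A, G w = ∫⁻ z in A, ‖deriv (τ S i j) z‖ₑ ^ 2 * G (τ S i j z) := by
  rw [lintegral_image_eq_lintegral_abs_det_fderiv_mul volume hm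
    (fun z hz => hasFDerivWithinAt_tau hA hz) (injOn_tau.mono hA)]
  refine lintegral_congr fun z => ?_
  rw [det_mulR, abs_of_nonneg (by positivity), ENNReal.ofReal_pow (norm_nonneg _), ofReal_norm]

theorem integral_tau {F : Type*} [NormedAddCommGroup F] [NormedSpace ℝ F] {A : Set ℂ}
    (hA : A ⊆ U S i j) (hm : MeasurableSet A) (G : ℂ → F) :
    ∫ w in τ S i j '' A, G w = ∫ z in A, ‖deriv (τ S i j) z‖ ^ 2 • G (τ S i j z) := by
  rw [integral_image_eq_integral_abs_det_fderiv_smul volume hm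
    (fun z hz => hasFDerivWithinAt_tau hA hz) (injOn_tau.mono hA)]
  refine integral_congr_ae (Eventually.of_forall fun z => ?_)
  show |(mulR (deriv (τ S i j) z)).det| • G (τ S i j z) = _
  rw [det_mulR, abs_of_nonneg (by positivity)]

/-- images of null sets are null sets -/
theorem volume_image_tau {A : Set ℂ} (hA : A ⊆ U S i j) (h0 : volume A = 0) :
    volume (τ S i j '' A) = 0 := by
  refine addHaar_image_eq_zero_of_differentiableOn_of_addHaar_eq_zero volume ?_ h0
  exact fun z hz => (hasFDerivWithinAt_tau hA hz).differentiableWithinAt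

variable (S) in
/-- the part of the sheet `j` which lies in the part `P i` of the fundamental domain -/
def Q (j i : Fin S.N) : Set ℂ := {z | z ∈ U S j i ∧ τ S j i z ∈ S.P i}

theorem measurableSet_Q : MeasurableSet (Q S j i) := measurableSet_preimage_tau measurableSet_P

theorem Q_sub : Q S j i ⊆ U S j i := fun _ h => h.1

theorem Q_disjoint {l : Fin S.N} (h : i ≠ l) : Disjoint (Q S j i) (Q S j l) := by
  rw [Set.disjoint_left]
  intro z hz hz'
  exact h (P_unique hz.1 hz.2 hz'.1 hz'.2)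

theorem iUnion_Q : ⋃ i, Q S j i = ball (0 : ℂ) 3 := by
  ext z
  simp only [mem_iUnion]
  constructor
  · rintro ⟨i, h⟩
    exact h.1.1
  · intro hz
    exact exists_P hz j

theorem Q_self : Q S j j = S.P j := by
  ext z
  constructor
  · rintro ⟨h1, h2⟩
    rwa [(tau_self h1.1).1] at h2
  · intro h
    have h1 : z ∈ ball (0 : ℂ) 3 := P_sub h
    refine ⟨mem_U_self h1, ?_⟩
    rwa [(tau_self h1).1]

theorem image_Q {A : Set ℂ} :
    τ S j i '' (A ∩ Q S j i) = {w | w ∈ S.P i ∧ w ∈ U S i j ∧ τ S i j w ∈ A} := by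
  ext w
  constructor
  · rintro ⟨z, ⟨hA, hU, hP⟩, rfl⟩
    have h1 := tau_mem_U hU
    refine ⟨hP, h1.1, ?_⟩
    rw [h1.2.1]
    exact hA
  · rintro ⟨h1, h2, h3⟩
    have h4 := tau_mem_U h2
    refine ⟨τ S i j w, ⟨h3, h4.1, ?_⟩, h4.2.1⟩
    rw [h4.2.1]
    exact h1

theorem norm_deriv_mul {z : ℂ} (h : z ∈ U S j i) :
    ‖deriv (τ S j i) z‖ ^ 2 * ‖deriv (τ S i j) (τ S j i z)‖ ^ 2 = 1 := by
  rw [← mul_pow, ← norm_mul, mul_comm, deriv_tau_mul h]
  simp

/-- `∫_{A ∩ Q j i} g_j = ∫_{w ∈ P i, τ w ∈ A} g_i` for densities -/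
theorem lintegral_Q {g : Fin S.N → ℂ → ℝ≥0∞}
    (hg : ∀ z ∈ U S j i, g j z = ‖deriv (τ S j i) z‖ₑ ^ 2 * g i (τ S j i z)) {A : Set ℂ}
    (hA : MeasurableSet A) :
    ∫⁻ z in A ∩ Q S j i, g j z = ∫⁻ w in {w | w ∈ S.P i ∧ w ∈ U S i j ∧ τ S i j w ∈ A}, g i w := by
  rw [← image_Q, lintegral_tau (inter_subset_right.trans Q_sub) (hA.inter measurableSet_Q)]
  exact setLIntegral_congr_fun (hA.inter measurableSet_Q) fun z hz => hg z hz.2.1

theorem integral_Q {F : Type*} [NormedAddCommGroup F] [NormedSpace ℝ F] {g : Fin S.N → ℂ → F}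
    (hg : ∀ z ∈ U S j i, g j z = ‖deriv (τ S j i) z‖ ^ 2 • g i (τ S j i z)) {A : Set ℂ}
    (hA : MeasurableSet A) :
    ∫ z in A ∩ Q S j i, g j z = ∫ w in {w | w ∈ S.P i ∧ w ∈ U S i j ∧ τ S i j w ∈ A}, g i w := by
  rw [← image_Q, integral_tau (inter_subset_right.trans Q_sub) (hA.inter measurableSet_Q)]
  exact setIntegral_congr_fun (hA.inter measurableSet_Q) fun z hz => hg z hz.2.1

theorem inter_iUnion_Q {A : Set ℂ} (hA : A ⊆ ball 0 3) : A = ⋃ i, A ∩ Q S j i := by
  rw [← inter_iUnion, iUnion_Q, inter_eq_left.2 hA]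

/-- **Change of variables**: the integral over the surface of a density which vanishes off the part
`A` of the sheet `j`. -/
theorem int_sheet {d : Fin S.N → ℂ → ℂ}
    (hd : ∀ i, ∀ z ∈ U S j i, d j z = ‖deriv (τ S j i) z‖ ^ 2 • d i (τ S j i z)) {A : Set ℂ}
    (hA : MeasurableSet A) (hA3 : A ⊆ ball 0 3)
    (hs : ∀ i, ∀ w ∈ S.P i, ¬ (w ∈ U S i j ∧ τ S i j w ∈ A) → d i w = 0)
    (hint : IntegrableOn (d j) A) : S.int d = ∫ z in A, d j z := by
  have h1 : ∫ z in A, d j z = ∑ i, ∫ z in A ∩ Q S j i, d j z := by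
    conv_lhs => rw [inter_iUnion_Q (S := S) (j := j) hA3]
    refine integral_iUnion_fintype (fun i => hA.inter measurableSet_Q) ?_ ?_
    · intro i l hil
      exact (Q_disjoint hil).mono inter_subset_right inter_subset_right
    · exact fun i => hint.mono_set inter_subset_left
  rw [h1, Sheets.int]
  refine Finset.sum_congr rfl fun i _ => ?_
  rw [integral_Q (hd i) hA]
  exact setIntegral_eq_of_subset_of_forall_sdiff_eq_zero measurableSet_P
    (s := {w | w ∈ S.P i ∧ w ∈ U S i j ∧ τ S i j w ∈ A}) (fun w hw => hw.1)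
    (fun w hw => hs i w hw.1 fun h => hw.2 ⟨hw.1, h.1, h.2⟩)

/-- the same for nonnegative densities; no condition on the support -/
theorem lintegral_le_sum {g : Fin S.N → ℂ → ℝ≥0∞}
    (hg : ∀ i, ∀ z ∈ U S j i, g j z = ‖deriv (τ S j i) z‖ₑ ^ 2 * g i (τ S j i z)) {A : Set ℂ}
    (hA : MeasurableSet A) (hA3 : A ⊆ ball 0 3) :
    ∫⁻ z in A, g j z ≤ ∑ i, ∫⁻ w in S.P i, g i w := by
  have h1 : ∫⁻ z in A, g j z = ∑ i, ∫⁻ z in A ∩ Q S j i, g j z := by
    conv_lhs => rw [inter_iUnion_Q (S := S) (j := j) hA3]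
    rw [lintegral_iUnion (fun i => hA.inter measurableSet_Q)
      (fun i l hil => (Q_disjoint hil).mono inter_subset_right inter_subset_right), tsum_fintype]
  rw [h1]
  refine Finset.sum_le_sum fun i _ => ?_
  rw [lintegral_Q (hg i) hA]
  exact lintegral_mono_set fun w hw => hw.1

end Vale.Agent.P281.H125
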