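import Vale.Agent.P281.H125.L2
import Vale.Agent.P281.H64.Base2
import Vale.Agent.P281.H124.Mean
import Vale.Agent.P299.H720.Montel

/-!
# P281, theorem T-D (helper125): limits of functions which are holomorphic up to small errors
-/

open Set Filter Metric MeasureTheory
open scoped Topology ContDiff ComplexConjugate ENNReal

noncomputable section

namespace Vale.Agent.P281.H125

open Vale.Agent.P281.H64

variable {E Γ : Type} [TopologicalSpace E] [Group Γ] [MulAction Γ E] {S : Sheets E Γ}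
  {i j : Fin S.N}

/-! ### Discs -/

theorem exists_disc {A B : Set ℂ} (hA : IsOpen A) (hB : IsOpen B) {z : ℂ} (hz : z ∈ U S j i)
    (hzB : z ∈ B) (hτ : τ S j i z ∈ A) : ∃ r > 0, ∃ C : ℝ≥0∞, C ≠ ⊤ ∧ ball z r ⊆ B ∧
      ball z r ⊆ U S j i ∧ (∀ u ∈ ball z r, τ S j i u ∈ A) ∧
      ∀ u ∈ ball z r, 1 ≤ C * ‖deriv (τ S j i) u‖ₑ ^ 2 := by
  have hd0 := deriv_tau_ne hz
  have h1 : ∀ᶠ u in 𝓝 z, ‖deriv (τ S j i) z‖ / 2 < ‖deriv (τ S j i) u‖ := by
    have h2 : ContinuousAt (fun u => ‖deriv (τ S j i) u‖) z :=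
      (analyticAt_tau hz).deriv.continuousAt.norm
    refine h2.eventually (lt_mem_nhds ?_)
    have := norm_pos_iff.2 hd0
    linarith
  have h3 : ∀ᶠ u in 𝓝 z, τ S j i u ∈ A :=
    (analyticAt_tau hz).continuousAt.eventually (hA.mem_nhds hτ)
  have h3' : ∀ᶠ u in 𝓝 z, u ∈ B := hB.mem_nhds hzB
  have h3'' : ∀ᶠ u in 𝓝 z, u ∈ U S j i := isOpen_U.mem_nhds hz
  obtain ⟨r, hr, hb⟩ := Metric.eventually_nhds_iff_ball.1 (h1.and (h3.and (h3'.and h3'')))
  set c : ℝ≥0∞ := ENNReal.ofReal (‖deriv (τ S j i) z‖ / 2) with hc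
  have hc0 : c ≠ 0 := by
    rw [hc]
    have := norm_pos_iff.2 hd0
    exact (ENNReal.ofReal_pos.2 (by positivity)).ne'
  have hct : c ≠ ⊤ := ENNReal.ofReal_ne_top
  refine ⟨r, hr, (c ^ 2)⁻¹, ENNReal.inv_ne_top.2 (pow_ne_zero 2 hc0), fun u hu => (hb u hu).2.2.1,
    fun u hu => (hb u hu).2.2.2, fun u hu => (hb u hu).2.1, fun u hu => ?_⟩
  have h4 : c ≤ ‖deriv (τ S j i) u‖ₑ := by
    rw [hc, ← ofReal_norm]
    exact ENNReal.ofReal_le_ofReal (hb u hu).1.le
  calc (1 : ℝ≥0∞) = (c ^ 2)⁻¹ * c ^ 2 :=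
        (ENNReal.inv_mul_cancel (pow_ne_zero 2 hc0) (ENNReal.pow_ne_top hct)).symm
    _ ≤ _ := by gcongr

theorem lint_comp {D : Set ℂ} (hD : MeasurableSet D) (hU : D ⊆ U S j i) {C : ℝ≥0∞}
    (hCt : C ≠ ⊤) (hC : ∀ u ∈ D, 1 ≤ C * ‖deriv (τ S j i) u‖ₑ ^ 2) {A : Set ℂ}
    (hA : ∀ u ∈ D, τ S j i u ∈ A) (g : ℂ → ℝ≥0∞) :
    ∫⁻ u in D, g (τ S j i u) ≤ C * ∫⁻ w in A, g w := by
  calc ∫⁻ u in D, g (τ S j i u) ≤ ∫⁻ u in D, C * (‖deriv (τ S j i) u‖ₑ ^ 2 * g (τ S j i u)) := by
        refine setLIntegral_mono' hD fun u hu => ?_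
        rw [← mul_assoc]
        calc g (τ S j i u) = 1 * g (τ S j i u) := (one_mul _).symm
          _ ≤ _ := by gcongr; exact hC u hu
    _ = C * ∫⁻ w in τ S j i '' D, g w := by
        rw [lintegral_const_mul' _ _ hCt, lintegral_tau hU hD]
    _ ≤ _ := by
        gcongr
        rintro _ ⟨u, hu, rfl⟩
        exact hA u hu

/-! ### The decomposition -/

/-- The functions `v k` are on the sheets the sums of a holomorphic function, a function small in
`L¹`, and a fixed function. -/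
structure Dec (S : Sheets E Γ) (l : Filter ℕ) (v : ℕ → E → ℂ) (H w : ℕ → Fin S.N → ℂ → ℂ)
    (ρ : Fin S.N → ℂ → ℂ) : Prop where
  inv : ∀ k, Inv Γ (v k)
  eq : ∀ k j, ∀ z ∈ ball (0 : ℂ) 2, v k (S.σ j z) = H k j z + w k j z + ρ j z
  hol : ∀ k j, DifferentiableOn ℂ (H k j) (ball 0 2)
  meas : ∀ k j, Measurable (w k j)
  small : ∀ j, Tendsto (fun k => ∫⁻ z in ball (0 : ℂ) 2, ‖w k j z‖ₑ) l (𝓝 0)
  cont : ∀ j, Continuous (ρ j)

variable {l : Filter ℕ} {v : ℕ → E → ℂ} {H w : ℕ → Fin S.N → ℂ → ℂ} {ρ : Fin S.N → ℂ → ℂ}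

theorem Dec.eq' (hd : Dec S l v H w ρ) (k : ℕ) {u : ℂ} (hu : u ∈ U S j i)
    (hu2 : u ∈ ball (0 : ℂ) 2) (hτ : τ S j i u ∈ ball (0 : ℂ) 2) :
    H k j u + w k j u + ρ j u =
      H k i (τ S j i u) + w k i (τ S j i u) + ρ i (τ S j i u) := by
  rw [← hd.eq k j u hu2, ← hd.eq k i _ hτ, sigma_eq hu, hd.inv k]

theorem Dec.locBdd (hd : Dec S l v H w ρ) {M : ℝ}
    (hM : ∀ᶠ k in l, ∀ j, ∀ z ∈ ball (0 : ℂ) 1, ‖H k j z‖ ≤ M) (j : Fin S.N) :
    Vale.Agent.P299.H720.LocBdd l (fun k => H k j) (ball 0 2) := by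
  intro x hx
  have hx3 : x ∈ ball (0 : ℂ) 3 := ball_subset_ball (by norm_num) hx
  obtain ⟨i, hxU, hxP⟩ := exists_P hx3 j
  obtain ⟨r₀, hr₀, C, hCt, hs2, hsU, hsτ, hC⟩ := exists_disc (A := ball 0 1) isOpen_ball
    isOpen_ball hxU hx (P_sub_one hxP)
  have hcb : closedBall x (r₀ / 2) ⊆ ball x r₀ := closedBall_subset_ball (by linarith)
  have hcont : ContinuousOn (fun u => ρ i (τ S j i u) - ρ j u) (closedBall x (r₀ / 2)) := by
    refine ContinuousOn.sub ?_ (hd.cont j).continuousOn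
    refine (hd.cont i).comp_continuousOn ?_
    exact differentiableOn_tau.continuousOn.mono (hcb.trans hsU)
  obtain ⟨B, hB⟩ := (isCompact_closedBall x (r₀ / 2)).exists_bound_of_continuousOn hcont
  set K : ℝ≥0∞ := ENNReal.ofReal (M + B) * volume (ball x (r₀ / 2)) + C + 1 with hK
  have hKt : K ≠ ⊤ := by
    rw [hK]
    exact ENNReal.add_ne_top.2 ⟨ENNReal.add_ne_top.2
      ⟨ENNReal.mul_ne_top ENNReal.ofReal_ne_top measure_ball_lt_top.ne, hCt⟩, ENNReal.one_ne_top⟩
  have hv0 : volume (ball (0 : ℂ) (r₀ / 4)) ≠ 0 := (measure_ball_pos volume 0 (by positivity)).ne'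
  refine ⟨r₀ / 4, by positivity, (K / volume (ball (0 : ℂ) (r₀ / 4))).toReal, ?_⟩
  filter_upwards [hM, (hd.small i).eventually (ge_mem_nhds (zero_lt_one' ℝ≥0∞)),
    (hd.small j).eventually (ge_mem_nhds (zero_lt_one' ℝ≥0∞))] with k h1 h2 h3
  have hkd : DifferentiableOn ℂ (H k j) (ball x r₀) := (hd.hol k j).mono hs2
  refine ⟨hkd.mono (ball_subset_ball (by linarith)), fun y hy => ?_⟩
  -- the integral
  have hint : ∫⁻ u in ball x (r₀ / 2), ‖H k j u‖ₑ ≤ K := by
    calc ∫⁻ u in ball x (r₀ / 2), ‖H k j u‖ₑ ≤ ∫⁻ u in ball x (r₀ / 2),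
          ((ENNReal.ofReal (M + B) + ‖w k i (τ S j i u)‖ₑ) + ‖w k j u‖ₑ) := by
          refine setLIntegral_mono' measurableSet_ball fun u hu => ?_
          have hu' : u ∈ ball x r₀ := ball_subset_ball (by linarith) hu
          have hτ1 := hsτ u hu'
          have e1 := hd.eq' k (hsU hu') (hs2 hu') (ball_subset_ball (by norm_num) hτ1)
          have e2 : H k j u = (H k i (τ S j i u) + (ρ i (τ S j i u) - ρ j u)) +
              w k i (τ S j i u) - w k j u := by linear_combination e1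
          rw [e2]
          refine enorm_sub_le.trans ?_
          gcongr
          refine (enorm_add_le _ _).trans ?_
          gcongr
          rw [← ofReal_norm]
          refine ENNReal.ofReal_le_ofReal ((norm_add_le _ _).trans (add_le_add ?_ ?_))
          · exact h1 i _ hτ1
          · exact hB u (ball_subset_closedBall hu)
      _ = (∫⁻ u in ball x (r₀ / 2), ENNReal.ofReal (M + B)) +
            (∫⁻ u in ball x (r₀ / 2), ‖w k i (τ S j i u)‖ₑ) +
            (∫⁻ u in ball x (r₀ / 2), ‖w k j u‖ₑ) := by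
          rw [lintegral_add_right _ (hd.meas k j).enorm, lintegral_add_left measurable_const]
      _ ≤ K := by
          rw [hK]
          gcongr
          · rw [setLIntegral_const]
          · refine (lint_comp measurableSet_ball
              ((ball_subset_ball (by linarith)).trans hsU) hCt (A := ball 0 2)
              (fun u hu => hC u (ball_subset_ball (by linarith) hu))
              (fun u hu => ball_subset_ball (by norm_num)
                (hsτ u (ball_subset_ball (by linarith) hu))) (fun u => ‖w k i u‖ₑ)).trans ?_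
            calc C * ∫⁻ w_1 in ball 0 2, ‖w k i w_1‖ₑ ≤ C * 1 := by gcongr
              _ = C := mul_one C
          · refine le_trans (lintegral_mono_set ?_) h3
            exact (ball_subset_ball (by linarith)).trans hs2
  -- the sub mean value inequality
  have hy2 : ball y (r₀ / 4) ⊆ ball x (r₀ / 2) := by
    intro u hu
    rw [mem_ball] at *
    have := dist_triangle u y x
    linarith
  have h4 := Vale.Agent.P281.H124.rpow_mul_volume_le (volume : Measure ℂ)
    (hkd.mono (hy2.trans (ball_subset_ball (by linarith)))) (p := 1) one_pos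
  simp only [ENNReal.rpow_one] at h4
  have h5 : ‖H k j y‖ₑ * volume (ball (0 : ℂ) (r₀ / 4)) ≤ K := by
    rw [← Measure.addHaar_ball_center volume y]
    exact (h4.trans (lintegral_mono_set hy2)).trans hint
  have h6 : ‖H k j y‖ₑ ≤ K / volume (ball (0 : ℂ) (r₀ / 4)) := by
    rwa [ENNReal.le_div_iff_mul_le (Or.inl hv0) (Or.inl measure_ball_lt_top.ne)]
  have h7 := ENNReal.toReal_mono (ENNReal.div_ne_top hKt hv0) h6
  rwa [toReal_enorm] at h7

/-- **Limits.** -/
theorem Dec.limit {𝒰 : Ultrafilter ℕ} (hd : Dec S 𝒰 v H w ρ) {M : ℝ}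
    (hM : ∀ᶠ k in (𝒰 : Filter ℕ), ∀ j, ∀ z ∈ ball (0 : ℂ) 1, ‖H k j z‖ ≤ M) :
    ∃ G : Fin S.N → ℂ → ℂ, (∀ j, DifferentiableOn ℂ (G j) (ball 0 2)) ∧
      (∀ j, TendstoLocallyUniformlyOn (fun k => H k j) (G j) (𝒰 : Filter ℕ) (ball 0 2)) ∧
      ∀ j i, ∀ z ∈ U S j i, z ∈ ball (0 : ℂ) 2 → τ S j i z ∈ ball (0 : ℂ) 2 →
        G j z + ρ j z = G i (τ S j i z) + ρ i (τ S j i z) := by
  choose G hG hlim _ using fun j =>
    Vale.Agent.P299.H720.montel_full 𝒰 isOpen_ball (hd.locBdd hM j)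
  refine ⟨G, hG, hlim, fun j i z hz hz2 hτ2 => ?_⟩
  obtain ⟨r₀, hr₀, C, hCt, hs2, hsU, hsτ, hC⟩ := exists_disc (A := ball 0 2) isOpen_ball
    isOpen_ball hz hz2 hτ2
  set F : ℂ → ℂ := fun u => (G j u + ρ j u) - (G i (τ S j i u) + ρ i (τ S j i u)) with hF
  have hτc : ContinuousOn (τ S j i) (ball z r₀) := differentiableOn_tau.continuousOn.mono hsU
  have hFc : ContinuousOn F (ball z r₀) := by
    refine ContinuousOn.sub (((hG j).continuousOn.mono hs2).add (hd.cont j).continuousOn) ?_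
    exact ((hG i).continuousOn.comp hτc fun u hu => hsτ u hu).add
      ((hd.cont i).comp_continuousOn hτc)
  have hcb : closedBall z (r₀ / 2) ⊆ ball z r₀ := closedBall_subset_ball (by linarith)
  have hbb : ball z (r₀ / 2) ⊆ ball z r₀ := ball_subset_ball (by linarith)
  have hu1 : TendstoUniformlyOn (fun k => H k j) (G j) (𝒰 : Filter ℕ) (closedBall z (r₀ / 2)) :=
    (tendstoLocallyUniformlyOn_iff_forall_isCompact isOpen_ball).1 (hlim j) _
      (hcb.trans hs2) (isCompact_closedBall _ _)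
  have hu2 : TendstoUniformlyOn (fun k => H k i) (G i) (𝒰 : Filter ℕ)
      (τ S j i '' closedBall z (r₀ / 2)) := by
    refine (tendstoLocallyUniformlyOn_iff_forall_isCompact isOpen_ball).1 (hlim i) _ ?_
      ((isCompact_closedBall _ _).image_of_continuousOn (hτc.mono hcb))
    rintro _ ⟨u, hu, rfl⟩
    exact hsτ u (hcb hu)
  rw [Metric.tendstoUniformlyOn_iff] at hu1 hu2
  have hint : ∀ ε : ℝ, 0 < ε → ∫⁻ u in ball z (r₀ / 2), ‖F u‖ₑ ≤
      ENNReal.ofReal (2 * ε) * volume (ball z (r₀ / 2)) := by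
    intro ε hε
    have hT : Tendsto (fun k => ENNReal.ofReal (2 * ε) * volume (ball z (r₀ / 2)) +
        C * (∫⁻ z in ball (0 : ℂ) 2, ‖w k i z‖ₑ) + ∫⁻ z in ball (0 : ℂ) 2, ‖w k j z‖ₑ)
        (𝒰 : Filter ℕ) (𝓝 (ENNReal.ofReal (2 * ε) * volume (ball z (r₀ / 2)) + C * 0 + 0)) :=
      (tendsto_const_nhds.add (ENNReal.Tendsto.const_mul (hd.small i) (Or.inr hCt))).add
        (hd.small j)
    rw [mul_zero, add_zero, add_zero] at hT
    refine ge_of_tendsto hT ?_
    filter_upwards [hu1 ε hε, hu2 ε hε] with k h1 h2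
    calc ∫⁻ u in ball z (r₀ / 2), ‖F u‖ₑ ≤ ∫⁻ u in ball z (r₀ / 2),
          ((ENNReal.ofReal (2 * ε) + ‖w k i (τ S j i u)‖ₑ) + ‖w k j u‖ₑ) := by
          refine setLIntegral_mono' measurableSet_ball fun u hu => ?_
          have hu' := hbb hu
          have e1 := hd.eq' k (hsU hu') (hs2 hu') (hsτ u hu')
          have e2 : F u = ((G j u - H k j u) - (G i (τ S j i u) - H k i (τ S j i u))) +
              w k i (τ S j i u) - w k j u := by
            simp only [hF]
            linear_combination e1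
          rw [e2]
          refine enorm_sub_le.trans ?_
          gcongr
          refine (enorm_add_le _ _).trans ?_
          gcongr
          rw [← ofReal_norm]
          refine ENNReal.ofReal_le_ofReal ((norm_sub_le _ _).trans ?_)
          have e3 := h1 u (ball_subset_closedBall hu)
          have e4 := h2 (τ S j i u) ⟨u, ball_subset_closedBall hu, rfl⟩
          rw [dist_eq_norm] at e3 e4
          linarith
      _ = (∫⁻ u in ball z (r₀ / 2), ENNReal.ofReal (2 * ε)) +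
            (∫⁻ u in ball z (r₀ / 2), ‖w k i (τ S j i u)‖ₑ) +
            (∫⁻ u in ball z (r₀ / 2), ‖w k j u‖ₑ) := by
          rw [lintegral_add_right _ (hd.meas k j).enorm, lintegral_add_left measurable_const]
      _ ≤ _ := by
          gcongr
          · rw [setLIntegral_const]
          · exact lint_comp measurableSet_ball (hbb.trans hsU) hCt (A := ball 0 2)
              (fun u hu => hC u (hbb hu)) (fun u hu => hsτ u (hbb hu)) (fun u => ‖w k i u‖ₑ)
          · exact hbb.trans hs2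
  have hzero : ∫⁻ u in ball z (r₀ / 2), ‖F u‖ₑ = 0 := by
    have hT : Tendsto (fun ε : ℝ => ENNReal.ofReal (2 * ε) * volume (ball z (r₀ / 2)))
        (𝓝[>] 0) (𝓝 (ENNReal.ofReal (2 * 0) * volume (ball z (r₀ / 2)))) := by
      refine ENNReal.Tendsto.mul_const ?_ (Or.inr measure_ball_lt_top.ne)
      refine ENNReal.tendsto_ofReal ?_
      exact ((continuous_const.mul continuous_id).tendsto (0 : ℝ)).mono_left nhdsWithin_le_nhds
    rw [mul_zero, ENNReal.ofReal_zero, zero_mul] at hT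
    refine le_antisymm (ge_of_tendsto hT ?_) zero_le
    filter_upwards [self_mem_nhdsWithin] with ε hε using hint ε hε
  have hae : ∀ᵐ u ∂(volume : Measure ℂ), u ∈ ball z (r₀ / 2) → F u = (fun _ => 0) u := by
    have h1 := (lintegral_eq_zero_iff' ((hFc.mono hbb).enorm.aemeasurable
      measurableSet_ball)).1 hzero
    have h2 := (ae_restrict_iff' measurableSet_ball).1 h1
    filter_upwards [h2] with u hu hu'
    simpa using hu hu'
  have h3 := Vale.Agent.P253.R2.H66.Weyl.eqOn_of_ae (μ := volume) isOpen_ball (hFc.mono hbb)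
    continuousOn_const hae (mem_ball_self (by positivity : 0 < r₀ / 2))
  have h4 : F z = 0 := h3
  exact sub_eq_zero.1 h4

end Vale.Agent.P281.H125
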