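import Vale.Agent.P281.H125.Bump
import Vale.Agent.P253.R2.H66.Weyl
import Mathlib.Analysis.InnerProductSpace.PiL2
import Mathlib.MeasureTheory.Function.L2Space

/-!
# P281, theorem T-D (helper125): square integrable `(0,1)`-forms, and forms orthogonal to the image of
`∂̄`
-/

open Set Filter Metric MeasureTheory
open scoped Topology ContDiff ComplexConjugate ENNReal InnerProductSpace

noncomputable section

namespace Vale.Agent.P281.H125

open Vale.Agent.P281.H64

variable {E Γ : Type} [TopologicalSpace E] [Group Γ] [MulAction Γ E] {S : Sheets E Γ}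
  {i j : Fin S.N}

/-! ### Measurability -/

theorem measurable_tau : Measurable (τ S i j) := by
  intro A hA
  have h1 : τ S i j ⁻¹' A = {z | z ∈ U S i j ∧ τ S i j z ∈ A} ∪
      {z | z ∉ U S i j ∧ (0 : ℂ) ∈ A} := by
    ext z
    simp only [mem_preimage, mem_union, Set.mem_ofPred_eq]
    by_cases h : z ∈ U S i j
    · simp [h]
    · have h2 : τ S i j z = 0 := by simp only [τ, h, dif_neg, not_false_iff]
      simp [h, h2]
  rw [h1]
  refine (measurableSet_preimage_tau hA).union ?_
  by_cases h0 : (0 : ℂ) ∈ A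
  · simp only [h0, and_true]
    exact isOpen_U.measurableSet.compl
  · simp only [h0, and_false]
    exact MeasurableSet.empty

variable (S) in
/-- square integrable `(0,1)`-forms, on the fundamental domain -/
abbrev HS : Type := PiLp 2 fun i : Fin S.N => Lp ℂ 2 (volume.restrict (S.P i))

instance finP : IsFiniteMeasure (volume.restrict (S.P i)) :=
  ⟨by
    rw [Measure.restrict_apply_univ]
    exact (measure_mono P_sub_one).trans_lt measure_ball_lt_top⟩

theorem memLp_of_cont {G : ℂ → ℂ} (hG : ContinuousOn G (ball 0 3)) :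
    MemLp G 2 (volume.restrict (S.P i)) := by
  have h1 : ContinuousOn G (closedBall 0 1) :=
    hG.mono (closedBall_subset_ball (by norm_num))
  obtain ⟨C, hC⟩ := (isCompact_closedBall (0 : ℂ) 1).exists_bound_of_continuousOn h1
  refine MemLp.of_bound ?_ C ?_
  · exact (hG.mono P_sub).aestronglyMeasurable measurableSet_P
  · filter_upwards [ae_restrict_mem measurableSet_P] with z hz
    exact hC z (ball_subset_closedBall (P_sub_one hz))

/-- the element of `HS` given by continuous functions -/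
def vec {G : Fin S.N → ℂ → ℂ} (hG : ∀ i, ContinuousOn (G i) (ball 0 3)) : HS S :=
  WithLp.toLp 2 fun i => (memLp_of_cont (hG i)).toLp (G i)

theorem vec_coe {G : Fin S.N → ℂ → ℂ} (hG : ∀ i, ContinuousOn (G i) (ball 0 3)) (i : Fin S.N) :
    ((vec hG i : Lp ℂ 2 (volume.restrict (S.P i))) : ℂ → ℂ) =ᵐ[volume.restrict (S.P i)] G i :=
  MemLp.coeFn_toLp (memLp_of_cont (hG i))

variable (S) in
/-- the image of `∂̄` -/
def R : Submodule ℂ (HS S) where
  carrier := {x | ∃ v : E → ℂ, S.Smooth v ∧ Inv Γ v ∧ ∀ i,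
    ((x i : Lp ℂ 2 (volume.restrict (S.P i))) : ℂ → ℂ) =ᵐ[volume.restrict (S.P i)] db S v i}
  add_mem' := by
    rintro x y ⟨u, hu, hu', hx⟩ ⟨v, hv, hv', hy⟩
    refine ⟨fun e => u e + v e, Smooth.add hu hv, hu'.add hv', fun i => ?_⟩
    have h1 : (x + y) i = x i + y i := rfl
    rw [h1]
    filter_upwards [Lp.coeFn_add (x i) (y i), hx i, hy i, ae_restrict_mem measurableSet_P]
      with z h2 h3 h4 h5
    rw [h2, Pi.add_apply, h3, h4, db_add hu hv (P_sub h5)]
  zero_mem' := by
    refine ⟨fun _ => 0, Smooth.const 0, fun _ _ => rfl, fun i => ?_⟩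
    have h1 : (0 : HS S) i = 0 := rfl
    rw [h1]
    filter_upwards [Lp.coeFn_zero ℂ 2 (volume.restrict (S.P i))] with z h2
    rw [h2]
    exact (dbar_const 0 z).symm
  smul_mem' := by
    rintro c x ⟨u, hu, hu', hx⟩
    refine ⟨fun e => c * u e, Smooth.const_mul c hu, hu'.const_mul c, fun i => ?_⟩
    have h1 : (c • x) i = c • x i := rfl
    rw [h1]
    filter_upwards [Lp.coeFn_smul c (x i), hx i, ae_restrict_mem measurableSet_P]
      with z h2 h3 h5
    rw [h2, Pi.smul_apply, h3, db_const_mul c hu (P_sub h5), smul_eq_mul]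

/-! ### The form given by its restriction to the fundamental domain -/

/-- the form on the sheet `j` -/
def Bf (b : HS S) (j : Fin S.N) (z : ℂ) : ℂ :=
  ∑ i, (Q S j i).indicator
    (fun z => ((b i : Lp ℂ 2 (volume.restrict (S.P i))) : ℂ → ℂ) (τ S j i z) *
      conj (deriv (τ S j i) z)) z

theorem Bf_eq (b : HS S) {z : ℂ} (hz : z ∈ Q S j i) : Bf b j z =
    ((b i : Lp ℂ 2 (volume.restrict (S.P i))) : ℂ → ℂ) (τ S j i z) *
      conj (deriv (τ S j i) z) := by
  rw [Bf, Finset.sum_eq_single i]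
  · rw [indicator_of_mem hz]
  · intro l _ hl
    rw [indicator_of_notMem]
    intro h
    exact hl (P_unique h.1 h.2 hz.1 hz.2)
  · intro h
    exact absurd (Finset.mem_univ i) h

theorem Bf_form (b : HS S) : IsForm S (Bf b) := by
  intro i j z hz
  obtain ⟨l, hl⟩ := exists_P (tau_mem hz) j
  have h1 := tau_trans hz hl.1
  have h2 : z ∈ Q S i l := by
    refine ⟨h1.1, ?_⟩
    rw [h1.2.1]
    exact hl.2
  rw [Bf_eq b h2, Bf_eq b (show τ S i j z ∈ Q S j l from hl), h1.2.1,
    deriv_tau_trans hz hl.1, map_mul, mul_assoc]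

theorem Bf_P (b : HS S) {z : ℂ} (hz : z ∈ S.P j) : Bf b j z =
    ((b j : Lp ℂ 2 (volume.restrict (S.P j))) : ℂ → ℂ) z := by
  have h1 : z ∈ Q S j j := by rw [Q_self]; exact hz
  have h2 : deriv (τ S j j) z = 1 := by
    have h3 : τ S j j =ᶠ[𝓝 z] id := by
      filter_upwards [isOpen_ball.mem_nhds (P_sub hz)] with u hu
      exact (tau_self hu).1
    rw [h3.deriv_eq]
    exact deriv_id z
  rw [Bf_eq b h1, h2, (tau_self (P_sub hz)).1, map_one, mul_one]

theorem measurable_Bf (b : HS S) (j : Fin S.N) : Measurable (Bf b j) := by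
  change Measurable fun z => ∑ i, (Q S j i).indicator
    (fun z => ((b i : Lp ℂ 2 (volume.restrict (S.P i))) : ℂ → ℂ) (τ S j i z) *
      conj (deriv (τ S j i) z)) z
  refine Finset.measurable_sum _ fun i _ => ?_
  refine Measurable.indicator ?_ measurableSet_Q
  refine Measurable.mul ?_ ?_
  · exact ((Lp.stronglyMeasurable (b i)).measurable).comp measurable_tau
  · exact Complex.continuous_conj.measurable.comp (measurable_deriv _)

theorem form_sq {F : Fin S.N → ℂ → ℂ} (hF : IsForm S F) (i : Fin S.N) :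
    ∀ z ∈ U S j i, ‖F j z‖ₑ ^ 2 = ‖deriv (τ S j i) z‖ₑ ^ 2 * ‖F i (τ S j i z)‖ₑ ^ 2 := by
  intro z hz
  rw [hF j i z hz, enorm_mul, mul_pow, mul_comm]
  congr 2
  rw [← ofReal_norm, ← ofReal_norm, RCLike.norm_conj]

theorem Lp_sq_lt_top (b : HS S) (i : Fin S.N) :
    ∫⁻ z in S.P i, ‖((b i : Lp ℂ 2 (volume.restrict (S.P i))) : ℂ → ℂ) z‖ₑ ^ 2 < ⊤ := by
  have h := (Lp.memLp (b i)).eLpNorm_lt_top
  rw [eLpNorm_lt_top_iff_lintegral_rpow_enorm_lt_top (by norm_num) (by norm_num)] at h
  simpa using h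

theorem Bf_sq (b : HS S) (j : Fin S.N) : ∫⁻ z in ball 0 3, ‖Bf b j z‖ₑ ^ 2 < ⊤ := by
  refine (lintegral_le_sum (S := S) (g := fun i z => ‖Bf b i z‖ₑ ^ 2)
    (fun i => form_sq (Bf_form b) i) measurableSet_ball subset_rfl).trans_lt ?_
  refine ENNReal.sum_lt_top.2 fun i _ => ?_
  have h : ∫⁻ z in S.P i, ‖Bf b i z‖ₑ ^ 2 =
      ∫⁻ z in S.P i, ‖((b i : Lp ℂ 2 (volume.restrict (S.P i))) : ℂ → ℂ) z‖ₑ ^ 2 :=
    setLIntegral_congr_fun measurableSet_P fun z hz => by
      show ‖Bf b i z‖ₑ ^ 2 = _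
      rw [Bf_P b hz]
  rw [h]
  exact Lp_sq_lt_top b i

instance finB : IsFiniteMeasure (volume.restrict (ball (0 : ℂ) 3)) :=
  ⟨by rw [Measure.restrict_apply_univ]; exact measure_ball_lt_top⟩

theorem Bf_memLp (b : HS S) (j : Fin S.N) : MemLp (Bf b j) 2 (volume.restrict (ball 0 3)) := by
  refine ⟨(measurable_Bf b j).aestronglyMeasurable, ?_⟩
  rw [eLpNorm_lt_top_iff_lintegral_rpow_enorm_lt_top (by norm_num) (by norm_num)]
  simpa using Bf_sq b j

theorem Bf_int (b : HS S) (j : Fin S.N) : IntegrableOn (Bf b j) (ball 0 3) :=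
  (Bf_memLp b j).integrable (by norm_num)

/-! ### The pairing with `∂̄` of a function supported in a sheet -/

theorem bounded_dbar {φ : ℂ → ℂ} (hφ : Tst φ) : ∃ C, ∀ z, ‖dbar φ z‖ ≤ C := by
  have h1 : Continuous (dbar φ) := continuous_dbar (hφ.smooth.of_le (by simp))
  have h2 : HasCompactSupport (dbar φ) := by
    refine HasCompactSupport.intro hφ.compact.isCompact fun z hz => ?_
    exact dbar_eq_zero_of_notMem hz
  exact h1.bounded_above_of_compact_support h2

theorem pair_eq {φ : ℂ → ℂ} (hφ : Tst φ) (b : HS S) (j : Fin S.N) :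
    ∑ i, ∫ z in S.P i, conj (db S (ext S j φ) i z) *
      ((b i : Lp ℂ 2 (volume.restrict (S.P i))) : ℂ → ℂ) z =
    ∫ z in ball 0 3, conj (dbar φ z) * Bf b j z := by
  have h0 : ∀ i, ∫ z in S.P i, conj (db S (ext S j φ) i z) *
      ((b i : Lp ℂ 2 (volume.restrict (S.P i))) : ℂ → ℂ) z =
      ∫ z in S.P i, conj (db S (ext S j φ) i z) * Bf b i z := fun i =>
    setIntegral_congr_fun measurableSet_P fun z hz => by
      show _ = conj (db S (ext S j φ) i z) * Bf b i z
      rw [Bf_P b hz]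
  simp only [h0]
  have hf := db_form (ext_smooth (S := S) (j := j) hφ) (ext_inv φ)
  have h1 := int_sheet (S := S) (j := j)
    (d := fun i z => conj (db S (ext S j φ) i z) * Bf b i z) (A := ball 0 3) ?_
    measurableSet_ball subset_rfl ?_ ?_
  · rw [Sheets.int] at h1
    rw [h1]
    refine setIntegral_congr_fun measurableSet_ball fun z hz => ?_
    show conj (db S (ext S j φ) j z) * Bf b j z = _
    rw [db_ext hz]
  · intro i z hz
    show conj (db S (ext S j φ) j z) * Bf b j z = _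
    rw [hf j i z hz, Bf_form b j i z hz, map_mul, Complex.conj_conj]
    have h2 : deriv (τ S j i) z * conj (deriv (τ S j i) z) =
        ((‖deriv (τ S j i) z‖ ^ 2 : ℝ) : ℂ) := by
      rw [Complex.mul_conj, Complex.normSq_eq_norm_sq]
    rw [Complex.real_smul, ← h2]
    ring
  · intro i w hw h
    show conj (db S (ext S j φ) i w) * Bf b i w = 0
    have h3 : w ∉ U S i j := fun hU => h ⟨hU, tau_mem hU⟩
    rw [db_ext_zero hφ (P_sub hw) h3, map_zero, zero_mul]
  · obtain ⟨C, hC⟩ := bounded_dbar hφ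
    have h4 : IntegrableOn (fun z => conj (dbar φ z) * Bf b j z) (ball 0 3) := by
      refine (Bf_int b j).bdd_mul (c := C) ?_ ?_
      · exact (Complex.continuous_conj.comp
          (continuous_dbar (hφ.smooth.of_le (by simp)))).aestronglyMeasurable
      · exact Eventually.of_forall fun z => by rw [RCLike.norm_conj]; exact hC z
    refine (integrableOn_congr_fun (fun z hz => ?_) measurableSet_ball).2 h4
    show conj (db S (ext S j φ) j z) * Bf b j z = _
    rw [db_ext hz]

theorem ext_mem_R {φ : ℂ → ℂ} (hφ : Tst φ) (j : Fin S.N) :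
    vec (fun i => (db_smooth (ext_smooth (S := S) (j := j) hφ) i).continuousOn) ∈ R S :=
  ⟨ext S j φ, ext_smooth hφ, ext_inv φ, fun i => vec_coe _ i⟩

theorem orth_eq {b : HS S} (hb : ∀ x ∈ R S, ⟪x, b⟫_ℂ = 0) {φ : ℂ → ℂ} (hφ : Tst φ)
    (j : Fin S.N) : ∫ z in ball 0 3, conj (dbar φ z) * Bf b j z = 0 := by
  rw [← pair_eq hφ b j, ← hb _ (ext_mem_R hφ j), PiLp.inner_apply]
  refine Finset.sum_congr rfl fun i _ => ?_
  rw [L2.inner_def]
  refine integral_congr_ae ?_
  filter_upwards [vec_coe (S := S)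
    (fun i => (db_smooth (ext_smooth (S := S) (j := j) hφ) i).continuousOn) i] with z hz
  rw [RCLike.inner_apply', hz]

/-- **Weyl's lemma**: a form orthogonal to the image of `∂̄` is antiholomorphic. -/
theorem exists_holo {b : HS S} (hb : ∀ x ∈ R S, ⟪x, b⟫_ℂ = 0) (j : Fin S.N) :
    ∃ f : ℂ → ℂ, DifferentiableOn ℂ f (ball 0 3) ∧
      (fun z => conj (Bf b j z)) =ᵐ[volume.restrict (ball 0 3)] f := by
  refine Vale.Agent.P253.R2.H66.Weyl.weyl_local isOpen_ball ?_ ?_
  · refine IntegrableOn.locallyIntegrableOn ?_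
    refine ⟨(Complex.continuous_conj.measurable.comp
      (measurable_Bf b j)).aestronglyMeasurable, ?_⟩
    refine (Bf_int b j).2.congr' (Eventually.of_forall fun z => ?_)
    rw [RCLike.norm_conj]
  · intro κ h1 h2 h3
    have hφ : Tst κ := Tst.of_tsupport h1 h2 h3
    have h4 := orth_eq hb hφ j
    have h5 : ∫ z, conj (Bf b j z) * Vale.Agent.P253.R2.H66.dzb κ z =
        ∫ z in ball 0 3, conj (Bf b j z) * dbar κ z := by
      simp only [← dbar_eq_dzb]
      refine (setIntegral_eq_integral_of_forall_compl_eq_zero fun z hz => ?_).symm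
      rw [dbar_eq_zero_of_notMem fun h => hz (h3 h), mul_zero]
    rw [h5]
    have h6 : conj (∫ z in ball 0 3, conj (dbar κ z) * Bf b j z) =
        ∫ z in ball 0 3, conj (Bf b j z) * dbar κ z := by
      rw [← integral_conj]
      refine integral_congr_ae (Eventually.of_forall fun z => ?_)
      show conj (conj (dbar κ z) * Bf b j z) = _
      rw [map_mul, Complex.conj_conj, mul_comm]
    rw [← h6, h4, map_zero]

end Vale.Agent.P281.H125
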