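import Vale.Agent.P281.H125.L2
import Vale.Agent.P281.H64.Base2
import Vale.Agent.P211.HK.LocSys
import Mathlib.Analysis.Complex.HasPrimitives

/-!
# P281, theorem T-D (helper125): holomorphic 1-forms and their primitives
-/

open Set Filter Metric MeasureTheory
open scoped Topology ContDiff ComplexConjugate ENNReal InnerProductSpace

noncomputable section

namespace Vale.Agent.P281.H125

open Vale.Agent.P281.H64

variable {E Γ : Type} [TopologicalSpace E] [Group Γ] [MulAction Γ E] {S : Sheets E Γ}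
  {i j : Fin S.N}

variable (S) in
/-- `f i dz` is a holomorphic 1-form -/
structure Hol1 (f : Fin S.N → ℂ → ℂ) : Prop where
  hol : ∀ i, DifferentiableOn ℂ (f i) (ball 0 3)
  change : ∀ i j, ∀ z ∈ U S i j, f i z = f j (τ S i j z) * deriv (τ S i j) z

/-- a form orthogonal to the image of `∂̄` is the conjugate of a holomorphic form -/
theorem exists_hol1 {b : HS S} (hb : ∀ x ∈ R S, ⟪x, b⟫_ℂ = 0) :
    ∃ f : Fin S.N → ℂ → ℂ, Hol1 S f ∧ ∀ j,
      (fun z => conj (Bf b j z)) =ᵐ[volume.restrict (ball 0 3)] f j := by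
  choose f hf hfe using fun j => exists_holo hb j
  refine ⟨f, ⟨hf, fun i j z hz => ?_⟩, hfe⟩
  have hc : ContinuousOn (fun z => f j (τ S i j z) * deriv (τ S i j) z) (U S i j) := by
    refine ContinuousOn.mul ?_ ?_
    · exact (hf j).continuousOn.comp differentiableOn_tau.continuousOn fun u hu => tau_mem hu
    · exact fun u hu => (analyticAt_tau hu).deriv.continuousAt.continuousWithinAt
  refine Vale.Agent.P253.R2.H66.Weyl.eqOn_of_ae (μ := volume) isOpen_U
    ((hf i).continuousOn.mono U_sub) hc ?_ hz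
  -- the bad set
  have h1 : ∀ᵐ z ∂(volume : Measure ℂ), z ∈ ball (0 : ℂ) 3 → conj (Bf b i z) = f i z :=
    (ae_restrict_iff' measurableSet_ball).1 (hfe i)
  have h2 : ∀ᵐ z ∂(volume : Measure ℂ), z ∈ ball (0 : ℂ) 3 → conj (Bf b j z) = f j z :=
    (ae_restrict_iff' measurableSet_ball).1 (hfe j)
  have h3 : ∀ᵐ z ∂(volume : Measure ℂ), z ∈ U S i j →
      conj (Bf b j (τ S i j z)) = f j (τ S i j z) := by
    rw [ae_iff] at h2 ⊢
    have h4 := volume_image_tau (S := S) (i := j) (j := i)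
      (A := {w | ¬ (w ∈ ball (0 : ℂ) 3 → conj (Bf b j w) = f j w)} ∩ U S j i)
      inter_subset_right (measure_mono_null inter_subset_left h2)
    refine measure_mono_null ?_ h4
    intro u hu
    simp only [Classical.not_imp, Set.mem_ofPred_eq] at hu
    have h5 := tau_mem_U hu.1
    refine ⟨τ S i j u, ⟨?_, h5.1⟩, h5.2.1⟩
    simp only [Classical.not_imp, Set.mem_ofPred_eq]
    exact ⟨tau_mem hu.1, hu.2⟩
  filter_upwards [h1, h3] with u h4 h5 hu
  rw [← h4 hu.1, ← h5 hu, Bf_form b i j u hu, map_mul, Complex.conj_conj]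

section prim
variable [ContinuousConstSMul Γ E]

/-- `s` is a primitive of the form `f` near `e` -/
def Par (S : Sheets E Γ) (f : Fin S.N → ℂ → ℂ) (e : E) (s : E → ℂ) : Prop :=
  ∀ (i : Fin S.N) (γ : Γ) (z : ℂ), z ∈ ball (0 : ℂ) 3 → e = γ • S.σ i z →
    ∀ᶠ u in 𝓝 z, HasDerivAt (fun u => s (γ • S.σ i u)) (f i u) u

theorem par_of {f : Fin S.N → ℂ → ℂ} (hf : Hol1 S f) {i : Fin S.N} {γ : Γ} {z : ℂ} {s : E → ℂ}
    (hz : z ∈ ball (0 : ℂ) 3)
    (h : ∀ᶠ u in 𝓝 z, HasDerivAt (fun u => s (γ • S.σ i u)) (f i u) u) :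
    Par S f (γ • S.σ i z) s := by
  intro j γ' w hw he
  have h1 : S.σ j w = (γ'⁻¹ * γ) • S.σ i z := by
    rw [mul_smul, he, smul_smul, inv_mul_cancel, one_smul]
  have hU : w ∈ U S j i := mem_U hw hz h1
  obtain ⟨h2, h3⟩ := tau_unique hw hz h1
  have h4 : ∀ᶠ u in 𝓝 w, HasDerivAt (fun u => s (γ • S.σ i u)) (f i (τ S j i u)) (τ S j i u) := by
    have h' : ∀ᶠ u in 𝓝 (τ S j i w), HasDerivAt (fun u => s (γ • S.σ i u)) (f i u) u := by
      rw [h2]; exact h
    exact (analyticAt_tau hU).continuousAt.eventually h'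
  have h5 : ∀ᶠ u in 𝓝 w, u ∈ U S j i ∧ κ S j i u = γ'⁻¹ * γ := by
    filter_upwards [isOpen_U.mem_nhds hU, kappa_local hU] with u a b
    exact ⟨a, b.trans h3⟩
  filter_upwards [h4, h5, h5.eventually_nhds] with u h6 h7 h8
  have h9 := h6.comp u (analyticAt_tau h7.1).differentiableAt.hasDerivAt
  rw [← hf.change j i u h7.1] at h9
  refine h9.congr_of_eventuallyEq ?_
  filter_upwards [h8] with v hv
  show s (γ' • S.σ j v) = s (γ • S.σ i (τ S j i v))
  rw [sigma_eq hv.1, hv.2, smul_smul, ← mul_assoc, mul_inv_cancel, one_mul]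

theorem par_sub {f : Fin S.N → ℂ → ℂ} {e : E} {s s' : E → ℂ} (hs : Par S f e s)
    (hs' : Par S f e s') : ∀ᶠ q in 𝓝 e, s q - s' q = s e - s' e := by
  obtain ⟨γ, i, z, hz, rfl⟩ := S.cover e
  have hz3 := Sheets.mem3 hz
  rw [← S.map_nhds_smul γ i hz3, eventually_map]
  have h1 := (hs i γ z hz3 rfl).and (hs' i γ z hz3 rfl)
  obtain ⟨r, hr, hb⟩ := Metric.eventually_nhds_iff_ball.1 h1
  filter_upwards [ball_mem_nhds z hr] with u hu
  have h2 : ∀ v ∈ ball z r, HasDerivAt
      (fun v => s (γ • S.σ i v) - s' (γ • S.σ i v)) 0 v := by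
    intro v hv
    have := (hb v hv).1.sub (hb v hv).2
    rwa [sub_self] at this
  exact IsOpen.is_const_of_deriv_eq_zero isOpen_ball (convex_ball z r).isPreconnected
    (fun v hv => (h2 v hv).differentiableAt.differentiableWithinAt)
    (fun v hv => (h2 v hv).deriv) hu (mem_ball_self hr)

theorem locSys {f : Fin S.N → ℂ → ℂ} (hf : Hol1 S f) :
    Vale.Agent.P211.HK.LocSys (X := E) (F := fun _ => ℂ) (Par S f) where
  opn e s hs := by
    obtain ⟨γ, i, z, hz, rfl⟩ := S.cover e
    have hz3 := Sheets.mem3 hz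
    rw [← S.map_nhds_smul γ i hz3, eventually_map]
    filter_upwards [(hs i γ z hz3 rfl).eventually_nhds, isOpen_ball.mem_nhds hz3] with u h1 h2
    exact par_of hf h2 h1
  uniq e s s' hs hs' h := by
    filter_upwards [par_sub hs hs'] with q hq
    rw [h, sub_self] at hq
    exact sub_eq_zero.1 hq
  clo e s s' hs hs' h := by
    obtain ⟨q, hq, hq'⟩ := (h.and_eventually (par_sub hs hs')).exists
    rw [hq, sub_self] at hq'
    exact (sub_eq_zero.1 hq'.symm)
  loc e s s' hs h := by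
    obtain ⟨γ, i, z, hz, rfl⟩ := S.cover e
    have hz3 := Sheets.mem3 hz
    refine par_of hf hz3 ?_
    rw [← S.map_nhds_smul γ i hz3, eventually_map] at h
    filter_upwards [hs i γ z hz3 rfl, h.eventually_nhds] with u h1 h2
    refine h1.congr_of_eventuallyEq ?_
    filter_upwards [h2] with v hv using hv.symm
  ext e := by
    obtain ⟨γ, i, z, hz, rfl⟩ := S.cover e
    have hz3 := Sheets.mem3 hz
    obtain ⟨F, hF⟩ := (hf.hol i).isExactOn_ball
    have hopen := S.isOpen_image_smul γ i isOpen_ball (Subset.refl (ball (0 : ℂ) 3))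
    refine ⟨_, hopen.mem_nhds ⟨z, hz3, rfl⟩, fun q hq v => ?_⟩
    refine ⟨fun q' => ext S i F q' + (v - ext S i F q), by ring, ?_⟩
    rintro _ ⟨u, hu, rfl⟩
    refine par_of hf hu ?_
    filter_upwards [isOpen_ball.mem_nhds hu] with u' hu'
    have h1 := (hF u' hu').add_const (v - ext S i F q)
    refine h1.congr_of_eventuallyEq ?_
    filter_upwards [isOpen_ball.mem_nhds hu'] with w hw
    rw [ext_smul F γ hw]

/-- **Primitives**: a holomorphic 1-form is `dh`, `h` holomorphic and additive. -/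
theorem exists_prim [SimplyConnectedSpace E] {f : Fin S.N → ℂ → ℂ} (hf : Hol1 S f) :
    ∃ (h : E → ℂ) (c : Γ → ℂ), Add S h c ∧
      ∀ i, ∀ z ∈ ball (0 : ℂ) 3, deriv (fun z => h (S.σ i z)) z = f i z := by
  have : LocallyPathConnectedSpace E := S.locPathConnected
  obtain ⟨e₀⟩ : Nonempty E := inferInstance
  obtain ⟨s, ⟨-, hs⟩, -⟩ := (locSys hf).existsUnique e₀ (0 : ℂ)
  have hder : ∀ i (γ : Γ), ∀ z ∈ ball (0 : ℂ) 3,
      HasDerivAt (fun u => s (γ • S.σ i u)) (f i z) z := fun i γ z hz =>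
    (hs _ i γ z hz rfl).self_of_nhds
  have hconn : PreconnectedSpace E := inferInstance
  have hadd : ∀ (γ : Γ) (e : E), s (γ • e) = s e + (s (γ • e₀) - s e₀) := by
    intro γ e
    have h1 : ∀ q, Par S f q fun e => s (γ • e) - (s (γ • e₀) - s e₀) := by
      intro q
      obtain ⟨γ', i, z, hz, rfl⟩ := S.cover q
      refine par_of hf (Sheets.mem3 hz) ?_
      filter_upwards [isOpen_ball.mem_nhds (Sheets.mem3 hz)] with u hu
      have h2 := (hder i (γ * γ') u hu).sub_const (s (γ • e₀) - s e₀)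
      simpa only [mul_smul] using h2
    have h3 := (locSys hf).eqOn (V := univ) isPreconnected_univ (fun q _ => h1 q)
      (fun q _ => hs q) (p := e₀) (mem_univ _) (by ring) e (mem_univ e)
    have h4 : s (γ • e) - (s (γ • e₀) - s e₀) = s e := h3
    rw [← h4]
    ring
  refine ⟨s, fun γ => s (γ • e₀) - s e₀, ⟨fun i z hz => ?_, hadd⟩, fun i z hz => ?_⟩
  · have := hder i 1 z hz
    simp only [one_smul] at this
    exact this.differentiableAt.differentiableWithinAt
  · have := hder i 1 z hz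
    simp only [one_smul] at this
    exact this.deriv

end prim

end Vale.Agent.P281.H125
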