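import Vale.Agent.P281.H125.Prim
import Mathlib.Analysis.InnerProductSpace.Projection.Submodule

/-!
# P281, theorem T-D (helper125): the orthogonal projection of a smooth form
-/

open Set Filter Metric MeasureTheory
open scoped Topology ContDiff ComplexConjugate ENNReal InnerProductSpace

noncomputable section

namespace Vale.Agent.P281.H125

open Vale.Agent.P281.H64

variable {E Γ : Type} [TopologicalSpace E] [Group Γ] [MulAction Γ E] {S : Sheets E Γ}
  {i j : Fin S.N}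

theorem IsForm.sub {F G : Fin S.N → ℂ → ℂ} (hF : IsForm S F) (hG : IsForm S G) :
    IsForm S fun j z => F j z - G j z := fun i j z hz => by
  show F i z - G i z = (F j (τ S i j z) - G j (τ S i j z)) * conj (deriv (τ S i j) z)
  rw [hF i j z hz, hG i j z hz, sub_mul]

theorem Hol1.conj {f : Fin S.N → ℂ → ℂ} (hf : Hol1 S f) :
    IsForm S fun j z => conj (f j z) := fun i j z hz => by
  show conj (f i z) = conj (f j (τ S i j z)) * conj (deriv (τ S i j) z)
  rw [hf.change i j z hz, map_mul]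

theorem Hol1.smooth {f : Fin S.N → ℂ → ℂ} (hf : Hol1 S f) (j : Fin S.N) :
    ContDiffOn ℝ ∞ (fun z => conj (f j z)) (ball 0 3) := by
  have h1 : ContDiffOn ℂ ∞ (f j) (ball 0 3) := (hf.hol j).contDiffOn isOpen_ball
  have h2 : ContDiffOn ℝ ∞ (f j) (ball 0 3) := h1.restrict_scalars ℝ
  exact Complex.conjCLE.contDiff.comp_contDiffOn h2

theorem lintegral_sq_eq {A : Set ℂ} (g : ℂ → ℂ) :
    ∫⁻ z in A, ‖g z‖ₑ ^ 2 = eLpNorm g 2 (volume.restrict A) ^ 2 := by
  rw [eLpNorm_eq_lintegral_rpow_enorm_toReal (by norm_num) (by norm_num)]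
  have h1 : (2 : ℝ≥0∞).toReal = 2 := rfl
  rw [h1, ← ENNReal.rpow_natCast, ← ENNReal.rpow_mul]
  norm_num

/-- `L¹ ≤ L²` on the disc -/
theorem L1_le_L2 {g : ℂ → ℂ} (hg : AEStronglyMeasurable g (volume.restrict (ball 0 3))) :
    ∫⁻ z in ball (0 : ℂ) 3, ‖g z‖ₑ ≤
      (∫⁻ z in ball (0 : ℂ) 3, ‖g z‖ₑ ^ 2) ^ (1 / 2 : ℝ) *
        volume (ball (0 : ℂ) 3) ^ (1 / 2 : ℝ) := by
  have h1 := eLpNorm_le_eLpNorm_mul_rpow_measure_univ (μ := volume.restrict (ball (0 : ℂ) 3))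
    (p := 1) (q := 2) (by norm_num) hg
  rw [eLpNorm_one_eq_lintegral_enorm, Measure.restrict_apply_univ] at h1
  refine h1.trans (le_of_eq ?_)
  rw [eLpNorm_eq_lintegral_rpow_enorm_toReal (by norm_num) (by norm_num)]
  have h2 : (2 : ℝ≥0∞).toReal = 2 := rfl
  rw [h2]
  norm_num

theorem exists_split {a : Fin S.N → ℂ → ℂ} (ha : Form01 S a) :
    ∃ (f r : Fin S.N → ℂ → ℂ) (v : ℕ → E → ℂ), Hol1 S f ∧ IsForm S r ∧
      (∀ j, ContDiffOn ℝ ∞ (r j) (ball 0 3)) ∧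
      (∀ j, ∀ z ∈ ball (0 : ℂ) 3, a j z = r j z + conj (f j z)) ∧
      (∀ k, S.Smooth (v k) ∧ Inv Γ (v k)) ∧
      ∀ j, Tendsto (fun k => ∫⁻ z in ball (0 : ℂ) 3, ‖db S (v k) j z - r j z‖ₑ) atTop (𝓝 0) := by
  have hac : ∀ i, ContinuousOn (a i) (ball 0 3) := fun i => (ha.smooth i).continuousOn
  obtain ⟨y, hy, b, hb, hyb⟩ := Submodule.exists_add_mem_mem_orthogonal
    (K := (R S).topologicalClosure) (vec hac)
  have hb' : ∀ x ∈ R S, ⟪x, b⟫_ℂ = 0 := fun x hx =>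
    (Submodule.mem_orthogonal _ _).1 hb x ((R S).le_topologicalClosure hx)
  obtain ⟨f, hf, hfe⟩ := exists_hol1 hb'
  have hy' : y ∈ closure (R S : Set (HS S)) := by
    rw [← Submodule.topologicalClosure_coe]
    exact hy
  obtain ⟨x, hxR, hxy⟩ := mem_closure_iff_seq_limit.1 hy'
  choose v hv1 hv2 hv3 using hxR
  set r : Fin S.N → ℂ → ℂ := fun j z => a j z - conj (f j z) with hr
  have hrF : IsForm S r := (form01_isForm ha).sub hf.conj
  have hrs : ∀ j, ContDiffOn ℝ ∞ (r j) (ball 0 3) := fun j => (ha.smooth j).sub (hf.smooth j)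
  refine ⟨f, r, v, hf, hrF, hrs, fun j z _ => by simp only [hr]; ring,
    fun k => ⟨hv1 k, hv2 k⟩, fun j => ?_⟩
  -- the difference
  set g : ℕ → Fin S.N → ℂ → ℂ := fun k j z => db S (v k) j z - r j z with hg
  have hgF : ∀ k, IsForm S (g k) := fun k => (db_form (hv1 k) (hv2 k)).sub hrF
  have hgc : ∀ k j, ContinuousOn (g k j) (ball 0 3) := fun k j =>
    (db_smooth (hv1 k) j).continuousOn.sub (hrs j).continuousOn
  -- `y` is the form `r`
  have hyr : ∀ i, ((y i : Lp ℂ 2 (volume.restrict (S.P i))) : ℂ → ℂ)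
      =ᵐ[volume.restrict (S.P i)] r i := by
    intro i
    have h1 : (vec hac) i = y i + b i := by rw [hyb]; rfl
    have h2 := vec_coe hac i
    rw [h1] at h2
    have h3 : ∀ᵐ z ∂(volume.restrict (S.P i)), conj (Bf b i z) = f i z :=
      ae_restrict_of_ae_restrict_of_subset P_sub (hfe i)
    filter_upwards [h2, h3, Lp.coeFn_add (y i) (b i), ae_restrict_mem measurableSet_P]
      with z h4 h5 h6 h7
    rw [h4, Pi.add_apply] at h6
    simp only [hr]
    rw [← h5, Complex.conj_conj, Bf_P b h7, h6]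
    ring
  have hPi : ∀ k i, ∫⁻ z in S.P i, ‖g k i z‖ₑ ^ 2 ≤ ‖x k - y‖ₑ ^ 2 := by
    intro k i
    rw [lintegral_sq_eq]
    gcongr
    have h1 : g k i =ᵐ[volume.restrict (S.P i)]
        (((x k - y) i : Lp ℂ 2 (volume.restrict (S.P i))) : ℂ → ℂ) := by
      have h2 : (x k - y) i = x k i - y i := rfl
      rw [h2]
      filter_upwards [hv3 k i, hyr i, Lp.coeFn_sub (x k i) (y i)] with z h3 h4 h5
      rw [h5, Pi.sub_apply, h3, h4]
    rw [eLpNorm_congr_ae h1, ← Lp.enorm_def]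
    rw [← ofReal_norm, ← ofReal_norm]
    exact ENNReal.ofReal_le_ofReal (PiLp.norm_apply_le _ i)
  have hsum : ∀ k, ∫⁻ z in ball (0 : ℂ) 3, ‖g k j z‖ₑ ^ 2 ≤ S.N * ‖x k - y‖ₑ ^ 2 := by
    intro k
    refine (lintegral_le_sum (S := S) (g := fun i z => ‖g k i z‖ₑ ^ 2)
      (fun i => form_sq (hgF k) i) measurableSet_ball subset_rfl).trans ?_
    refine (Finset.sum_le_sum fun i _ => hPi k i).trans ?_
    rw [Finset.sum_const, Finset.card_univ, Fintype.card_fin, nsmul_eq_mul]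
  have hlim : Tendsto (fun k => ‖x k - y‖ₑ) atTop (𝓝 0) := by
    have h1 : Tendsto (fun k => x k - y) atTop (𝓝 0) := by
      have := hxy.sub_const y
      rwa [sub_self] at this
    have := h1.enorm
    rwa [enorm_zero] at this
  have hT : Tendsto (fun k => ((S.N : ℝ≥0∞) * ‖x k - y‖ₑ ^ 2) ^ (1 / 2 : ℝ) *
      volume (ball (0 : ℂ) 3) ^ (1 / 2 : ℝ)) atTop (𝓝 (((S.N : ℝ≥0∞) * 0 ^ 2) ^ (1 / 2 : ℝ) *
      volume (ball (0 : ℂ) 3) ^ (1 / 2 : ℝ))) := by
    refine ENNReal.Tendsto.mul_const ?_ (Or.inr ?_)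
    · refine (ENNReal.continuous_rpow_const.tendsto _).comp ?_
      exact ENNReal.Tendsto.const_mul (ENNReal.Tendsto.pow hlim)
        (Or.inr (ENNReal.natCast_ne_top _))
    · exact (ENNReal.rpow_lt_top_of_nonneg (by norm_num) measure_ball_lt_top.ne).ne
  have h0 : ((S.N : ℝ≥0∞) * 0 ^ 2) ^ (1 / 2 : ℝ) * volume (ball (0 : ℂ) 3) ^ (1 / 2 : ℝ) = 0 := by
    simp
  rw [h0] at hT
  refine tendsto_of_tendsto_of_tendsto_of_le_of_le tendsto_const_nhds hT (fun k => zero_le) ?_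
  intro k
  refine (L1_le_L2 ((hgc k j).aestronglyMeasurable measurableSet_ball)).trans ?_
  exact mul_le_mul' (ENNReal.rpow_le_rpow (hsum k) (by norm_num)) le_rfl

end Vale.Agent.P281.H125
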